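import Mathlib
import Crest.Prelude.Def_Steinberg

/-!
Shared definitions for result 171 (S0259): Steinberg families, 3-cocycles, derivation data.
-/

set_option autoImplicit false

namespace Crest.Agent.R171

/-- A family of group elements `x i j a` (used only for `i ≠ j`) satisfying the Steinberg
relations over the commutative ring `R`. -/
structure StFam (I : Type*) (R : Type*) [CommRing R] (Γ : Type*) [Group Γ] where
  x : I → I → R → Γ
  add : ∀ i j, i ≠ j → ∀ a b, x i j a * x i j b = x i j (a + b)
  comm : ∀ i j k l, i ≠ j → k ≠ l → j ≠ k → i ≠ l → ∀ a b,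
    x i j a * x k l b = x k l b * x i j a
  mul : ∀ i j l, i ≠ j → j ≠ l → i ≠ l → ∀ a b,
    x i j a * x j l b * (x i j a)⁻¹ * (x j l b)⁻¹ = x i l (a * b)

namespace StFam

variable {I : Type*} {R : Type*} [CommRing R] {Γ : Type*} [Group Γ] (X : StFam I R Γ)

/-- `w_ij(u) = x_ij(u) x_ji(-u⁻¹) x_ij(u)`. -/
def w (i j : I) (u : Rˣ) : Γ :=
  X.x i j (u : R) * X.x j i (-((u⁻¹ : Rˣ) : R)) * X.x i j (u : R)

/-- `h_ij(u) = w_ij(u) w_ij(-1)`. -/
def h (i j : I) (u : Rˣ) : Γ := X.w i j u * X.w i j (-1)


/-- the image of a family under a homomorphism -/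
def map {Γ' : Type*} [Group Γ'] (π : Γ →* Γ') : StFam I R Γ' where
  x i j a := π (X.x i j a)
  add i j hij a b := by rw [← map_mul, X.add i j hij]
  comm i j k l h1 h2 h3 h4 a b := by rw [← map_mul, X.comm i j k l h1 h2 h3 h4, map_mul]
  mul i j l h1 h2 h3 a b := by
    rw [← map_mul, ← map_inv, ← map_mul, ← map_inv, ← map_mul, X.mul i j l h1 h2 h3]


/-- base change of a family: a family over `S` gives a family over `R` along `R → S`. -/
def comap {S : Type*} [CommRing S] (φ : R →+* S) (X : StFam I S Γ) : StFam I R Γ where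
  x i j a := X.x i j (φ a)
  add i j hij a b := by rw [X.add i j hij, map_add]
  comm i j k l h1 h2 h3 h4 a b := X.comm i j k l h1 h2 h3 h4 _ _
  mul i j l h1 h2 h3 a b := by rw [X.mul i j l h1 h2 h3, map_mul]

end StFam

/-! ### the torus elements on twelve indices -/

namespace StFam

variable {R : Type*} [CommRing R] {Γ : Type*} [Group Γ] (X : StFam (Fin 12) R Γ)

/-- lift of `diag(u,u,u⁻¹,u⁻¹,1,…)`. -/
def g1 (u : Rˣ) : Γ := X.h 0 3 u * X.h 1 2 u

/-- lift of `diag(v,v⁻¹,v,v⁻¹)` repeated three times. -/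
def g2 (v : Rˣ) : Γ :=
  (X.h 0 3 v * X.h 4 7 v * X.h 8 11 v) * (X.h 1 2 v * X.h 5 6 v * X.h 9 10 v)⁻¹


end StFam

/-! ### 3-cocycles with trivial coefficients -/

/-- A 3-cocycle on `G` with values in the abelian group `M` (trivial action). -/
structure Cocycle3 (G : Type*) [Group G] (M : Type*) [AddCommGroup M] where
  f : G → G → G → M
  cocycle : ∀ a b c d,
    f b c d - f (a * b) c d + f a (b * c) d - f a b (c * d) + f a b c = 0

/-- the fully antisymmetrised value (evaluation on the torus class of a commuting triple) -/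
def Cocycle3.pair {G : Type*} [Group G] {M : Type*} [AddCommGroup M] (f : Cocycle3 G M)
    (a b c : G) : M :=
  f.f a b c + f.f b c a + f.f c a b - f.f b a c - f.f a c b - f.f c b a

/-- A ring homomorphism `q : A → M` with three `q`-derivations `A → M`. -/
structure DerData (A M : Type*) [CommRing A] [CommRing M] where
  q : A →+* M
  D : Fin 3 → A → M
  add : ∀ k a b, D k (a + b) = D k a + D k b
  leib : ∀ k a b, D k (a * b) = q a * D k b + D k a * q b

/-! ### the canonical family in the Steinberg group of the Prelude -/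

open Crest.AlgebraR.Steinberg in
/-- The canonical Steinberg family in `St(R)`. -/
noncomputable def stFam (R : Type*) [CommRing R] : StFam ℕ R (St R) where
  x i j a := if h : i ≠ j then PresentedGroup.of (rels := rels R) (⟨(i, j), h⟩, a) else 1
  add i j hij a b := by
    simp only [ne_eq, hij, not_false_eq_true, dite_true]
    have h1 : (x i j hij a * x i j hij b * (x i j hij (a + b))⁻¹ : FreeGroup (Gen R)) ∈ rels R :=
      Or.inl (Or.inl ⟨i, j, hij, a, b, rfl⟩)
    have h2 := PresentedGroup.one_of_mem h1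
    simp only [map_mul, map_inv] at h2
    exact mul_inv_eq_one.mp h2
  comm i j k l hij hkl hjk hil a b := by
    simp only [ne_eq, hij, hkl, not_false_eq_true, dite_true]
    have h1 : (x i j hij a * x k l hkl b * (x i j hij a)⁻¹ * (x k l hkl b)⁻¹ :
        FreeGroup (Gen R)) ∈ rels R :=
      Or.inl (Or.inr ⟨i, j, k, l, hij, hkl, a, b, hjk, hil, rfl⟩)
    have h2 := PresentedGroup.one_of_mem h1
    simp only [map_mul, map_inv] at h2
    have h3 := mul_inv_eq_one.mp h2
    exact mul_inv_eq_iff_eq_mul.mp h3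
  mul i j l hij hjl hil a b := by
    simp only [ne_eq, hij, hjl, hil, not_false_eq_true, dite_true]
    have h1 : (x i j hij a * x j l hjl b * (x i j hij a)⁻¹ * (x j l hjl b)⁻¹ *
        (x i l hil (a * b))⁻¹ : FreeGroup (Gen R)) ∈ rels R :=
      Or.inr ⟨i, j, l, hij, hjl, hil, a, b, rfl⟩
    have h2 := PresentedGroup.one_of_mem h1
    simp only [map_mul, map_inv] at h2
    exact mul_inv_eq_one.mp h2

end Crest.Agent.R171
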