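import Crest.Agent.R171.Defs
import Crest.Prelude.Def_Steinberg
import Crest.Agent.R171.Ring5

-- ▼ part R171/Homology5
section

/-!
Homology interface for the conjugation variant: 5-torsion elements `u`, the 3-cycle
`β(u) = ∑_{i<5} [u | u^i | u]`, invariance under inner conjugation and detection by a 3-cocycle.
-/

set_option autoImplicit false

open Crest.AlgebraR.Steinberg CategoryTheory

namespace Crest.Agent.R171

/-- value of a 3-cocycle on `β(u)` -/
def Cocycle3.beta {G : Type*} [Group G] {M : Type*} [AddCommGroup M] (f : Cocycle3 G M)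
    (u : G) : M := ∑ i ∈ Finset.range 5, f.f u (u ^ i) u

/-- A 3-cocycle takes the same value on `β(u)` and `β(t u t⁻¹)`. -/
theorem Cocycle3.beta_conj {G : Type*} [Group G] {M : Type*} [AddCommGroup M]
    (f : Cocycle3 G M) (u t : G) (hu : u ^ 5 = 1) : f.beta (t * u * t⁻¹) = f.beta u := by
  -- the 2-cochain `g`
  set cj : G → G := fun a => t * a * t⁻¹ with hcj
  set g : G → G → M := fun a b => f.f t a b - f.f (cj a) t b + f.f (cj a) (cj b) t with hg
  have hct : ∀ a, cj a * t = t * a := fun a => by simp [hcj]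
  have hmul : ∀ a b, cj a * cj b = cj (a * b) := fun a b => by simp [hcj, mul_assoc]
  have key : ∀ a b c, f.f a b c - f.f (cj a) (cj b) (cj c) =
      g b c - g (a * b) c + g a (b * c) - g a b := by
    intro a b c
    have h1 := f.cocycle t a b c
    have h2 := f.cocycle (cj a) t b c
    have h3 := f.cocycle (cj a) (cj b) t c
    have h4 := f.cocycle (cj a) (cj b) (cj c) t
    rw [hct] at h2 h3 h4
    rw [hmul] at h3 h4
    rw [hmul] at h4
    simp only [hg]
    have h5 : (f.f a b c - f.f (t * a) b c + f.f t (a * b) c - f.f t a (b * c) + f.f t a b) -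
      (f.f t b c - f.f (t * a) b c + f.f (cj a) (t * b) c - f.f (cj a) t (b * c) + f.f (cj a) t b) +
      (f.f (cj b) t c - f.f (cj (a * b)) t c + f.f (cj a) (t * b) c - f.f (cj a) (cj b) (t * c) +
        f.f (cj a) (cj b) t) -
      (f.f (cj b) (cj c) t - f.f (cj (a * b)) (cj c) t + f.f (cj a) (cj (b * c)) t -
        f.f (cj a) (cj b) (t * c) + f.f (cj a) (cj b) (cj c)) = 0 := by
      rw [h1, h2, h3, h4]; simp
    rw [← sub_eq_zero]
    rw [← h5]
    abel
  have hpow : ∀ i : ℕ, (t * u * t⁻¹) ^ i = cj (u ^ i) := fun i => by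
    rw [conj_pow]
  have h6 : f.beta u - f.beta (t * u * t⁻¹) = 0 := by
    unfold Cocycle3.beta
    rw [← Finset.sum_sub_distrib]
    have : ∀ i ∈ Finset.range 5, f.f u (u ^ i) u -
        f.f (t * u * t⁻¹) ((t * u * t⁻¹) ^ i) (t * u * t⁻¹) =
        (g (u ^ i) u - g u (u ^ i)) - (g (u ^ (i + 1)) u - g u (u ^ (i + 1))) := by
      intro i _
      rw [hpow i]
      have := key u (u ^ i) u
      rw [this, ← pow_succ', ← pow_succ]
      abel
    rw [Finset.sum_congr rfl this, Finset.sum_range_sub']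
    simp [hu]
  exact (sub_eq_zero.1 h6).symm

section Chains

open groupHomology Finsupp

variable (G : Type) [Group G]

/-- the chain complex -/
noncomputable abbrev CC : ChainComplex (ModuleCat ℤ) ℕ := inhomogeneousChains (Rep.trivial ℤ G ℤ)

variable {G}

/-- A basic `3`-chain. -/
noncomputable def tri (a b c : G) : (Fin 3 → G) →₀ ℤ := single ![a, b, c] 1

/-- A basic `4`-chain. -/
noncomputable def tet (a b c d : G) : (Fin 4 → G) →₀ ℤ := single ![a, b, c, d] 1

theorem d_tri (a b c : G) : (CC G).d 3 2 (tri a b c : (Fin 3 → G) →₀ ℤ) =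
    ((single ![b, c] 1 - single ![a * b, c] 1 + single ![a, b * c] 1 - single ![a, b] 1 :
      (Fin 2 → G) →₀ ℤ)) := by
  have h2 : (CC G).d 3 2 = inhomogeneousChains.d (Rep.trivial ℤ G ℤ) 2 :=
    inhomogeneousChains.d_def (A := Rep.trivial ℤ G ℤ) 2
  rw [h2]
  unfold tri
  refine (inhomogeneousChains.d_single (A := Rep.trivial ℤ G ℤ) 2 ![a, b, c] (1 : ℤ)).trans ?_
  have e0 : (fun i : Fin 2 => (![a, b, c] : Fin 3 → G) i.succ) = ![b, c] := by
    ext i; fin_cases i <;> rfl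
  have c0 : Fin.contractNth (0 : Fin 3) (· * ·) ![a, b, c] = ![a * b, c] := by
    ext i; fin_cases i <;> rfl
  have c1 : Fin.contractNth (1 : Fin 3) (· * ·) ![a, b, c] = ![a, b * c] := by
    ext i; fin_cases i <;> rfl
  have c2 : Fin.contractNth (2 : Fin 3) (· * ·) ![a, b, c] = ![a, b] := by
    ext i; fin_cases i <;> rfl
  rw [Fin.sum_univ_three, e0, c0, c1, c2]
  simp
  abel

theorem d_tet (a b c d : G) : (CC G).d 4 3 (tet a b c d : (Fin 4 → G) →₀ ℤ) =
    ((tri b c d - tri (a * b) c d + tri a (b * c) d - tri a b (c * d) + tri a b c :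
      (Fin 3 → G) →₀ ℤ)) := by
  have h2 : (CC G).d 4 3 = inhomogeneousChains.d (Rep.trivial ℤ G ℤ) 3 :=
    inhomogeneousChains.d_def (A := Rep.trivial ℤ G ℤ) 3
  rw [h2]
  unfold tet tri
  refine (inhomogeneousChains.d_single (A := Rep.trivial ℤ G ℤ) 3 ![a, b, c, d] (1 : ℤ)).trans ?_
  have e0 : (fun i : Fin 3 => (![a, b, c, d] : Fin 4 → G) i.succ) = ![b, c, d] := by
    ext i; fin_cases i <;> rfl
  have c0 : Fin.contractNth (0 : Fin 4) (· * ·) ![a, b, c, d] = ![a * b, c, d] := by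
    ext i; fin_cases i <;> rfl
  have c1 : Fin.contractNth (1 : Fin 4) (· * ·) ![a, b, c, d] = ![a, b * c, d] := by
    ext i; fin_cases i <;> rfl
  have c2 : Fin.contractNth (2 : Fin 4) (· * ·) ![a, b, c, d] = ![a, b, c * d] := by
    ext i; fin_cases i <;> rfl
  have c3 : Fin.contractNth (3 : Fin 4) (· * ·) ![a, b, c, d] = ![a, b, c] := by
    ext i; fin_cases i <;> rfl
  rw [Fin.sum_univ_four, e0, c0, c1, c2, c3]
  simp
  abel

/-- the fourth differential as a linear map between finitely supported functions -/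
noncomputable def d4 (G : Type) [Group G] : ((Fin 4 → G) →₀ ℤ) →ₗ[ℤ] ((Fin 3 → G) →₀ ℤ) :=
  ((CC G).d 4 3).hom

theorem d4_tet (a b c d : G) : d4 G (tet a b c d) =
    tri b c d - tri (a * b) c d + tri a (b * c) d - tri a b (c * d) + tri a b c := d_tet a b c d

/-- the third differential as a linear map between finitely supported functions -/
noncomputable def d3 (G : Type) [Group G] : ((Fin 3 → G) →₀ ℤ) →ₗ[ℤ] ((Fin 2 → G) →₀ ℤ) :=
  ((CC G).d 3 2).hom

theorem d3_tri (a b c : G) : d3 G (tri a b c) =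
    single ![b, c] 1 - single ![a * b, c] 1 + single ![a, b * c] 1 - single ![a, b] 1 :=
  d_tri a b c

/-- evaluation of a cocycle on 3-chains -/
noncomputable def Cocycle3.lin {M : Type*} [AddCommGroup M] (f : Cocycle3 G M) :
    ((Fin 3 → G) →₀ ℤ) →ₗ[ℤ] M :=
  Finsupp.linearCombination ℤ fun g : Fin 3 → G => f.f (g 0) (g 1) (g 2)

theorem Cocycle3.lin_tri {M : Type*} [AddCommGroup M] (f : Cocycle3 G M) (a b c : G) :
    f.lin (tri a b c) = f.f a b c := by
  simp [Cocycle3.lin, tri]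

theorem Cocycle3.lin_comp_d4 {M : Type*} [AddCommGroup M] (f : Cocycle3 G M) :
    f.lin ∘ₗ d4 G = 0 := by
  ext g
  have hg : g = ![g 0, g 1, g 2, g 3] := by
    ext i; fin_cases i <;> rfl
  have h1 : (single g 1 : (Fin 4 → G) →₀ ℤ) = tet (g 0) (g 1) (g 2) (g 3) := by
    rw [tet, ← hg]
  simp only [LinearMap.comp_apply, Finsupp.lsingle_apply, LinearMap.zero_apply]
  rw [h1, d4_tet]
  simp only [map_add, map_sub, Cocycle3.lin_tri]
  exact f.cocycle _ _ _ _

/-- the universal 3-cocycle -/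
noncomputable def univCocycle (G : Type) [Group G] :
    Cocycle3 G (((Fin 3 → G) →₀ ℤ) ⧸ LinearMap.range (d4 G)) where
  f a b c := Submodule.Quotient.mk (tri a b c)
  cocycle a b c d := by
    rw [← Submodule.Quotient.mk_sub, ← Submodule.Quotient.mk_add, ← Submodule.Quotient.mk_sub,
      ← Submodule.Quotient.mk_add, ← d4_tet]
    exact (Submodule.Quotient.mk_eq_zero _).2 ⟨_, rfl⟩

/-- the chain `β(u)` -/
noncomputable def bch (u : G) : (Fin 3 → G) →₀ ℤ := ∑ i ∈ Finset.range 5, tri u (u ^ i) u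

theorem Cocycle3.lin_bch {M : Type*} [AddCommGroup M] (f : Cocycle3 G M) (u : G) :
    f.lin (bch u) = f.beta u := by
  simp only [bch, map_sum, Cocycle3.lin_tri, Cocycle3.beta]

theorem d3_bch (u : G) (hu : u ^ 5 = 1) : d3 G (bch u) = 0 := by
  unfold bch
  rw [map_sum]
  have : ∀ i ∈ Finset.range 5, d3 G (tri u (u ^ i) u) =
      (single ![u ^ i, u] 1 - single ![u, u ^ i] 1 : (Fin 2 → G) →₀ ℤ) -
      (single ![u ^ (i + 1), u] 1 - single ![u, u ^ (i + 1)] 1) := by
    intro i _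
    rw [d3_tri, ← pow_succ', ← pow_succ]
    abel
  rw [Finset.sum_congr rfl this, Finset.sum_range_sub']
  simp [hu]

theorem exists_d4_conj (u t : G) (hu : u ^ 5 = 1) :
    ∃ w, d4 G w = bch (t * u * t⁻¹) - bch u := by
  have h := (univCocycle G).beta_conj u t hu
  have h1 : ∀ v : G, (univCocycle G).beta v = Submodule.Quotient.mk (bch v) := by
    intro v
    unfold Cocycle3.beta bch
    exact (map_sum (Submodule.mkQ (LinearMap.range (d4 G))) _ _).symm
  rw [h1, h1, Submodule.Quotient.eq] at h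
  exact h

/-- A 3-cycle detected by a 3-cocycle but mapping to a boundary shows non-injectivity. -/
theorem not_injective_of_chain {A F : Type} [CommRing A] [CommRing F] (φ : A →+* F)
    (z : (Fin 3 → St A) →₀ ℤ) (hz : d3 (St A) z = 0) {M : Type} [AddCommGroup M]
    (f : Cocycle3 (St A) M) (hf : f.lin z ≠ 0)
    (w : (Fin 4 → St F) →₀ ℤ)
    (hw : d4 (St F) w = Finsupp.mapDomain (fun g => stMap φ ∘ g) z) :
    ¬ Function.Injective (H3map φ).hom := by
  intro hinj
  -- the cycle and its class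
  let cyc : (CC (St A)).cycles 3 := (CC (St A)).cyclesMk (i := 3) z 2 (by simp) hz
  have hcyc : (CC (St A)).iCycles 3 cyc = z := (CC (St A)).i_cyclesMk (i := 3) z 2 (by simp) hz
  -- the class is non-zero
  have hne : (CC (St A)).homologyπ 3 cyc ≠ 0 := by
    intro h0
    have hd : (CC (St A)).d 4 3 ≫ (ModuleCat.ofHom f.lin : (CC (St A)).X 3 ⟶ ModuleCat.of ℤ M) = 0 := by
      ext1
      exact f.lin_comp_d4
    have h1 : (CC (St A)).homologyπ 3 ≫ (CC (St A)).homologyι 3 ≫
        (CC (St A)).descOpcycles (ModuleCat.ofHom f.lin : (CC (St A)).X 3 ⟶ ModuleCat.of ℤ M)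
          4 (by simp) hd = (CC (St A)).iCycles 3 ≫ ModuleCat.ofHom f.lin := by
      rw [HomologicalComplex.homology_π_ι_assoc, HomologicalComplex.p_descOpcycles]
    have h2 := congrArg (fun k => k.hom cyc) h1
    simp only [ModuleCat.hom_comp, LinearMap.comp_apply] at h2
    rw [h0, map_zero, map_zero] at h2
    rw [hcyc] at h2
    exact hf h2.symm
  -- its image vanishes
  have hzero : (H3map φ).hom ((CC (St A)).homologyπ 3 cyc) = 0 := by
    have h1 := groupHomology.π_map (stMap φ) (trivialHom φ) 3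
    have h2 := congrArg (fun k => k.hom cyc) h1
    simp only [ModuleCat.hom_comp, LinearMap.comp_apply] at h2
    have h3 : (HomologicalComplex.cyclesMap (chainsMap (stMap φ) (trivialHom φ)) 3).hom cyc =
        ((CC (St F)).toCycles 4 3).hom w := by
      have hmono : Function.Injective ((CC (St F)).iCycles 3).hom :=
        (ModuleCat.mono_iff_injective _).1 inferInstance
      apply hmono
      have h4 := congrArg (fun k => k.hom cyc)
        (HomologicalComplex.cyclesMap_i (chainsMap (stMap φ) (trivialHom φ)) 3)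
      have h5 := congrArg (fun k => k.hom w) ((CC (St F)).toCycles_i 4 3)
      simp only [ModuleCat.hom_comp, LinearMap.comp_apply] at h4 h5
      have h6 : ((chainsMap (stMap φ) (trivialHom φ)).f 3).hom z =
          Finsupp.mapDomain (fun g => stMap φ ∘ g) z := by
        rw [chainsMap_f]
        ext g
        rfl
      refine h4.trans ?_
      refine Eq.trans ?_ h5.symm
      refine (congrArg ((chainsMap (stMap φ) (trivialHom φ)).f 3).hom hcyc).trans ?_
      exact h6.trans hw.symm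
    have h7 := congrArg (fun k => k.hom w) ((CC (St F)).toCycles_comp_homologyπ 4 3)
    simp only [ModuleCat.hom_comp, LinearMap.comp_apply] at h7
    refine h2.trans ?_
    refine (congrArg ((CC (St F)).homologyπ 3).hom h3).trans ?_
    exact h7
  exact hne (hinj (hzero.trans (map_zero (H3map φ).hom).symm))

theorem mapDomain_bch {G H : Type} [Group G] [Group H] (ψ : G →* H) (u : G) :
    Finsupp.mapDomain (fun g : Fin 3 → G => ψ ∘ g) (bch u) = bch (ψ u) := by
  unfold bch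
  rw [← Finsupp.lmapDomain_apply (M := ℤ) (R := ℤ), map_sum]
  refine Finset.sum_congr rfl fun i _ => ?_
  unfold tri
  rw [Finsupp.lmapDomain_apply, Finsupp.mapDomain_single]
  congr 1
  ext j
  fin_cases j <;> simp

/-- **Homology interface**: two elements `u₀, u₁ ∈ St(A)` with `u⁵ = 1` which become conjugate in
`St(F)` but are distinguished by a 3-cocycle on `St(A)` show that `K₃(A) → K₃(F)` is not
injective. -/
theorem not_injective_of_conj {A F : Type} [CommRing A] [CommRing F] (φ : A →+* F)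
    (u₀ u₁ : St A) (h₀ : u₀ ^ 5 = 1) (h₁ : u₁ ^ 5 = 1) (t : St F)
    (ht : t * stMap φ u₀ * t⁻¹ = stMap φ u₁) {M : Type} [AddCommGroup M]
    (f : Cocycle3 (St A) M)
    (hne : ∑ i ∈ Finset.range 5, f.f u₁ (u₁ ^ i) u₁ ≠ ∑ i ∈ Finset.range 5, f.f u₀ (u₀ ^ i) u₀) :
    ¬ Function.Injective (H3map φ).hom := by
  obtain ⟨w, hw⟩ := exists_d4_conj (stMap φ u₀) t (by rw [← map_pow, h₀, map_one])
  rw [ht] at hw
  refine not_injective_of_chain φ (bch u₁ - bch u₀) ?_ f ?_ w ?_
  · rw [map_sub, d3_bch u₁ h₁, d3_bch u₀ h₀, sub_zero]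
  · rw [map_sub, Cocycle3.lin_bch, Cocycle3.lin_bch]
    exact sub_ne_zero.2 hne
  · rw [hw, ← Finsupp.lmapDomain_apply (M := ℤ) (R := ℤ), map_sub, Finsupp.lmapDomain_apply,
      Finsupp.lmapDomain_apply, mapDomain_bch, mapDomain_bch]

end Chains

end Crest.Agent.R171
end

-- ▼ part R171/StRep
section

/-!
# The matrix representation of the Steinberg group (result 171)
-/

set_option linter.unusedSectionVars false
set_option linter.unusedSimpArgs false

noncomputable section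

namespace Crest.Agent.R171
open Crest.AlgebraR.Steinberg

section Gens

variable {R : Type*} [Ring R]

/-- generator of the Steinberg group -/
def X (i j : ℕ) (h : i ≠ j) (a : R) : St R := PresentedGroup.of (⟨(i, j), h⟩, a)

theorem X_add (i j : ℕ) (h : i ≠ j) (a b : R) : X i j h a * X i j h b = X i j h (a + b) := by
  have : PresentedGroup.mk (rels R) (x i j h a * x i j h b * (x i j h (a + b))⁻¹) = 1 :=
    PresentedGroup.one_of_mem (Or.inl (Or.inl ⟨i, j, h, a, b, rfl⟩))
  rw [map_mul, map_mul, map_inv, mul_inv_eq_one] at this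
  exact this



theorem X_zero (i j : ℕ) (h : i ≠ j) : X i j h (0 : R) = 1 := by
  have := X_add i j h (0 : R) 0
  rw [add_zero] at this
  exact mul_eq_left.mp this

theorem X_neg (i j : ℕ) (h : i ≠ j) (a : R) : (X i j h a)⁻¹ = X i j h (-a) := by
  rw [inv_eq_iff_mul_eq_one, X_add, add_neg_cancel, X_zero]

theorem stMap_X {S : Type*} [Ring S] (φ : R →+* S) (i j : ℕ) (h : i ≠ j) (a : R) :
    stMap φ (X i j h a) = X i j h (φ a) := by
  rfl

theorem closure_X : Subgroup.closure {g : St R | ∃ (i j : ℕ) (h : i ≠ j) (a : R), g = X i j h a}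
    = ⊤ := by
  rw [← PresentedGroup.closure_range_of]
  congr 1
  ext g
  constructor
  · rintro ⟨i, j, h, a, rfl⟩
    exact ⟨(⟨(i, j), h⟩, a), rfl⟩
  · rintro ⟨⟨⟨⟨i, j⟩, h⟩, a⟩, rfl⟩
    exact ⟨i, j, h, a, rfl⟩

theorem St_induction {p : St R → Prop} (h1 : p 1) (hX : ∀ i j h a, p (X i j h a))
    (hmul : ∀ g g', p g → p g' → p (g * g')) (g : St R) : p g := by
  have hg : g ∈ Subgroup.closure {g : St R | ∃ (i j : ℕ) (h : i ≠ j) (a : R), g = X i j h a} := by
    rw [closure_X]; trivial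
  refine Subgroup.closure_induction'' (p := fun g _ => p g) ?_ ?_ h1 ?_ hg
  · rintro x ⟨i, j, h, a, rfl⟩
    exact hX i j h a
  · rintro x ⟨i, j, h, a, rfl⟩
    rw [X_neg]
    exact hX i j h _
  · intro x y _ _ hx hy
    exact hmul x y hx hy

end Gens

section Rep

variable {R : Type*} [CommRing R]

/-- The elementary endomorphism `a E_{ij}` of `R^{(ℕ)}`. -/
def E (i j : ℕ) (a : R) : Module.End R (ℕ →₀ R) :=
  a • (Finsupp.lsingle i ∘ₗ Finsupp.lapply j)

@[simp] theorem E_apply (i j : ℕ) (a : R) (v : ℕ →₀ R) :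
    E i j a v = Finsupp.single i (a * v j) := by
  simp [E]

theorem E_add (i j : ℕ) (a b : R) : E i j a + E i j b = E i j (a + b) := by
  simp [E, add_smul]

theorem E_mul_ne (i j k l : ℕ) (h : j ≠ k) (a b : R) : E i j a * E k l b = 0 := by
  apply LinearMap.ext
  intro v
  rw [Module.End.mul_apply, E_apply, E_apply, Finsupp.single_eq_of_ne (by exact h)]
  simp

theorem E_mul (i j l : ℕ) (a b : R) : E i j a * E j l b = E i l (a * b) := by
  apply LinearMap.ext
  intro v
  rw [Module.End.mul_apply, E_apply, E_apply, E_apply, Finsupp.single_eq_same, mul_assoc]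

/-- the unit `1 + a E_{ij}` -/
def unitX (i j : ℕ) (h : i ≠ j) (a : R) : (Module.End R (ℕ →₀ R))ˣ where
  val := 1 + E i j a
  inv := 1 + E i j (-a)
  val_inv := by
    have h1 := E_mul_ne i j i j h.symm a (-a)
    have h2 := E_add i j a (-a)
    rw [add_neg_cancel] at h2
    have h3 : E i j (0 : R) = 0 := by simp [E]
    rw [mul_add, add_mul, add_mul, h1, one_mul, mul_one, one_mul, add_zero, add_assoc, h2, h3,
      add_zero]
  inv_val := by
    have h1 := E_mul_ne i j i j h.symm (-a) a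
    have h2 := E_add i j (-a) a
    rw [neg_add_cancel] at h2
    have h3 : E i j (0 : R) = 0 := by simp [E]
    rw [mul_add, add_mul, add_mul, h1, one_mul, mul_one, one_mul, add_zero, add_assoc, h2, h3,
      add_zero]

theorem unitX_add (i j : ℕ) (h : i ≠ j) (a b : R) :
    unitX i j h a * unitX i j h b = unitX i j h (a + b) := by
  ext1
  change (1 + E i j a) * (1 + E i j b) = 1 + E i j (a + b)
  rw [← E_add]
  simp only [mul_add, add_mul, E_mul_ne i j i j h.symm, mul_one, one_mul]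
  abel

theorem unitX_comm (i j k l : ℕ) (hij : i ≠ j) (hkl : k ≠ l) (hjk : j ≠ k) (hil : i ≠ l) (a b : R) :
    unitX i j hij a * unitX k l hkl b = unitX k l hkl b * unitX i j hij a := by
  ext1
  change (1 + E i j a) * (1 + E k l b) = (1 + E k l b) * (1 + E i j a)
  rw [mul_add, add_mul, add_mul, mul_add, add_mul, add_mul, E_mul_ne i j k l hjk,
    E_mul_ne k l i j hil.symm, mul_one, one_mul, one_mul]
  simp only [mul_one]
  abel

theorem unitX_commutator (i j l : ℕ) (hij : i ≠ j) (hjl : j ≠ l) (hil : i ≠ l) (a b : R) :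
    unitX i j hij a * unitX j l hjl b * (unitX i j hij a)⁻¹ * (unitX j l hjl b)⁻¹ =
      unitX i l hil (a * b) := by
  rw [mul_inv_eq_iff_eq_mul, mul_inv_eq_iff_eq_mul]
  ext1
  change (1 + E i j a) * (1 + E j l b) = (1 + E i l (a * b)) * (1 + E j l b) * (1 + E i j a)
  simp only [mul_add, add_mul, mul_one, one_mul, E_mul, E_mul_ne i l j l hjl.symm.symm.symm,
    E_mul_ne j l i j hil.symm, E_mul_ne i l i j hil.symm]
  simp only [zero_mul, add_zero]
  abel

/-- the matrix representation of the Steinberg group -/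
def rhoU : St R →* (Module.End R (ℕ →₀ R))ˣ :=
  PresentedGroup.toGroup (f := fun g : Gen R => unitX g.1.1.1 g.1.1.2 g.1.2 g.2) (by
    rintro r ((⟨i, j, h, a, b, rfl⟩ | ⟨i, j, k, l, hij, hkl, a, b, hjk, hil, rfl⟩) |
      ⟨i, j, l, hij, hjl, hil, a, b, rfl⟩)
    · simp only [x, map_mul, map_inv, FreeGroup.lift_apply_of]
      rw [mul_inv_eq_one]
      exact unitX_add i j h a b
    · simp only [x, map_mul, map_inv, FreeGroup.lift_apply_of]
      rw [mul_inv_eq_one, mul_inv_eq_iff_eq_mul]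
      exact unitX_comm i j k l hij hkl hjk hil a b
    · simp only [x, map_mul, map_inv, FreeGroup.lift_apply_of]
      rw [mul_inv_eq_one]
      exact unitX_commutator i j l hij hjl hil a b)

/-- the matrix representation of the Steinberg group, with values in endomorphisms -/
def rho : St R →* Module.End R (ℕ →₀ R) := (Units.coeHom _).comp rhoU

@[simp] theorem rho_X (i j : ℕ) (h : i ≠ j) (a : R) : rho (X i j h a) = 1 + E i j a := by
  simp only [rho, rhoU, X, MonoidHom.comp_apply, PresentedGroup.toGroup.of]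
  rfl

/-! ### embedding finite matrices -/

variable {ι : Type*} [Fintype ι] [DecidableEq ι] (e : ι → ℕ) (he : Function.Injective e)

/-- restriction of a vector to the block given by `e` -/
def resL : (ℕ →₀ R) →ₗ[R] (ι → R) where
  toFun v := fun a => v (e a)
  map_add' v w := by ext a; simp
  map_smul' r v := by ext a; simp

/-- extension of a vector by zero from the block given by `e` -/
def extL : (ι → R) →ₗ[R] (ℕ →₀ R) where
  toFun w := ∑ a, Finsupp.single (e a) (w a)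
  map_add' v w := by simp [Finset.sum_add_distrib]
  map_smul' r v := by simp [Finset.smul_sum]

theorem resL_apply (v : ℕ →₀ R) (a : ι) : resL e v a = v (e a) := rfl

include he in
theorem resL_extL (w : ι → R) : resL e (extL e w) = w := by
  ext a
  simp only [resL, extL, LinearMap.coe_mk, AddHom.coe_mk, Finsupp.finsetSum_apply]
  rw [Finset.sum_eq_single a]
  · simp
  · intro b _ hb
    rw [Finsupp.single_apply, if_neg (fun h => hb (he h))]
  · simp

/-- the non-unital embedding of matrices: extension by zero -/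
def embE (M : Matrix ι ι R) : Module.End R (ℕ →₀ R) :=
  (extL e ∘ₗ Matrix.mulVecLin M ∘ₗ resL e)

theorem embE_apply (M : Matrix ι ι R) (v : ℕ →₀ R) :
    embE e M v = ∑ a, Finsupp.single (e a) (∑ b, M a b * v (e b)) := by
  simp only [embE, LinearMap.comp_apply, extL, LinearMap.coe_mk, AddHom.coe_mk,
    Matrix.mulVecLin_apply, Matrix.mulVec, dotProduct, resL_apply]

include he in
theorem embE_mul (M N : Matrix ι ι R) : embE e (M * N) = embE e M * embE e N := by
  apply LinearMap.ext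
  intro v
  simp only [embE, Module.End.mul_apply, LinearMap.comp_apply, resL_extL e he,
    Matrix.mulVecLin_apply, Matrix.mulVec_mulVec]

theorem embE_add (M N : Matrix ι ι R) : embE e (M + N) = embE e M + embE e N := by
  apply LinearMap.ext
  intro v
  simp only [embE, LinearMap.comp_apply, LinearMap.add_apply, Matrix.mulVecLin_apply,
    Matrix.add_mulVec, map_add]



theorem embE_zero : embE e (0 : Matrix ι ι R) = 0 := by
  apply LinearMap.ext
  intro v
  simp [embE]

/-- the multiplicative embedding of finite matrices (identity outside the block) -/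
def emb (M : Matrix ι ι R) : Module.End R (ℕ →₀ R) := 1 + embE e (M - 1)

theorem emb_one : emb e (1 : Matrix ι ι R) = 1 := by
  rw [emb, sub_self, embE_zero, add_zero]

include he in
theorem emb_mul (M N : Matrix ι ι R) : emb e (M * N) = emb e M * emb e N := by
  have h : M * N - 1 = (M - 1) + (N - 1) + (M - 1) * (N - 1) := by noncomm_ring
  rw [emb, emb, emb, h, embE_add, embE_add, embE_mul e he]
  noncomm_ring

include he in
theorem embE_injective {M N : Matrix ι ι R} (h : embE e M = embE e N) : M = N := by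
  have h2 : Matrix.mulVecLin M = Matrix.mulVecLin N := by
    apply LinearMap.ext
    intro w
    have := congrArg (fun f => resL e (f (extL e w))) h
    simpa only [embE, LinearMap.comp_apply, resL_extL e he] using this
  ext a b
  have := congrArg (fun f => f (Pi.single b 1) a) h2
  simpa using this

include he in
theorem emb_injective {M N : Matrix ι ι R} (h : emb e M = emb e N) : M = N := by
  have h2 : embE e (M - 1) = embE e (N - 1) := by
    apply LinearMap.ext
    intro v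
    have := congrArg (fun f => f v) h
    simp only [emb, LinearMap.add_apply] at this
    exact add_left_cancel this
  exact sub_left_injective (embE_injective e he h2)

theorem embE_single (a b : ι) (r : R) : embE e (Matrix.single a b r) = E (e a) (e b) r := by
  apply LinearMap.ext
  intro v
  rw [embE_apply, E_apply, Finset.sum_eq_single a]
  · congr 1
    rw [Finset.sum_eq_single b]
    · simp
    · intro c _ hc
      simp [Matrix.single_apply_of_col_ne, hc.symm]
    · simp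
  · intro c _ hc
    rw [Finset.sum_eq_zero, Finsupp.single_zero]
    intro d _
    simp [Matrix.single_apply_of_row_ne, hc.symm]
  · simp

theorem emb_transvection (a b : ι) (r : R) :
    emb e (Matrix.transvection a b r) = 1 + E (e a) (e b) r := by
  rw [emb, Matrix.transvection, add_sub_cancel_left, embE_single]



end Rep

section Naturality

variable {R S : Type*} [CommRing R] [CommRing S] (φ : R →+* S)

/-- base change of a vector -/
def mapV (v : ℕ →₀ R) : ℕ →₀ S := Finsupp.mapRange φ (map_zero φ) v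

@[simp] theorem mapV_apply (v : ℕ →₀ R) (i : ℕ) : mapV φ v i = φ (v i) := by simp [mapV]

theorem mapV_single (i : ℕ) (r : R) :
    mapV φ (Finsupp.single i r) = Finsupp.single i (φ r) := by
  simp [mapV]

theorem mapV_add (v w : ℕ →₀ R) : mapV φ (v + w) = mapV φ v + mapV φ w := by
  ext i; simp

theorem rho_stMap (g : St R) (v : ℕ →₀ R) : rho (stMap φ g) (mapV φ v) = mapV φ (rho g v) := by
  induction g using St_induction generalizing v with
  | h1 => simp
  | hX i j h a =>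
    rw [stMap_X, rho_X, rho_X]
    simp only [LinearMap.add_apply, Module.End.one_apply, E_apply, mapV_add, mapV_single,
      mapV_apply, map_mul]
  | hmul g g' hg hg' =>
    rw [map_mul, map_mul, map_mul, Module.End.mul_apply, Module.End.mul_apply, hg', hg]

theorem emb_map {ι : Type*} [Fintype ι] [DecidableEq ι] (e : ι → ℕ)
    (M : Matrix ι ι R) (v : ℕ →₀ R) :
    emb e (M.map φ) (mapV φ v) = mapV φ (emb e M v) := by
  simp only [emb, LinearMap.add_apply, Module.End.one_apply, mapV_add]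
  congr 1
  rw [embE_apply, embE_apply]
  have : ∀ (F : ι → ℕ →₀ R), mapV φ (∑ a, F a) = ∑ a, mapV φ (F a) := by
    intro F
    let ψ : (ℕ →₀ R) →+ (ℕ →₀ S) :=
      { toFun := mapV φ, map_zero' := by ext; simp, map_add' := mapV_add φ }
    exact map_sum ψ F _
  rw [this]
  refine Finset.sum_congr rfl fun a _ => ?_
  rw [mapV_single]
  congr 1
  rw [map_sum]
  refine Finset.sum_congr rfl fun b _ => ?_
  rw [map_mul, mapV_apply]
  congr 1
  simp only [Matrix.sub_apply, Matrix.map_apply, map_sub, Matrix.one_apply]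
  split_ifs <;> simp

/-- naturality of the matrix representation on elements supported in a finite block -/
theorem rho_stMap_of_emb {ι : Type*} [Fintype ι] [DecidableEq ι] (e : ι → ℕ)
    {g : St R} {M : Matrix ι ι R} (h : rho g = emb e M) :
    rho (stMap φ g) = emb e (M.map φ) := by
  apply Finsupp.lhom_ext'
  intro i
  apply LinearMap.ext_ring
  have h1 : (Finsupp.single i (1 : S)) = mapV φ (Finsupp.single i 1) := by
    rw [mapV_single, map_one]
  simp only [LinearMap.comp_apply, Finsupp.lsingle_apply]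
  rw [h1, rho_stMap, emb_map, h]

end Naturality

end Crest.Agent.R171
end
end

-- ▼ part R171/Central
section

/-!
FACT A: the kernel of `St(R) → GL(R)` (finitary automorphisms of `ℕ →₀ R`) is central.
-/

set_option autoImplicit false
set_option linter.unusedSimpArgs false

open Crest.AlgebraR.Steinberg

namespace Crest.Agent.R171.Central

variable {R : Type*} [CommRing R]

/-- the elementary matrix unit `a E_ij` acting on `ℕ →₀ R`. -/
noncomputable def E (i j : ℕ) (a : R) : Module.End R (ℕ →₀ R) :=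
  (Finsupp.lsingle i).comp (a • (Finsupp.lapply j))

@[simp] theorem E_apply (i j : ℕ) (a : R) (v : ℕ →₀ R) :
    E i j a v = Finsupp.single i (a * v j) := by
  simp [E]

theorem E_mul_E (i j k l : ℕ) (a b : R) :
    E i j a * E k l b = if j = k then E i l (a * b) else 0 := by
  ext m n
  by_cases h : j = k
  · subst h; simp [Module.End.mul_apply, mul_assoc]
  · simp [Module.End.mul_apply, h, Finsupp.single_apply, Ne.symm h]

theorem E_add (i j : ℕ) (a b : R) : E i j (a + b) = E i j a + E i j b := by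
  ext m n
  simp [add_mul]

@[simp] theorem E_zero (i j : ℕ) : E i j (0 : R) = 0 := by
  ext m n
  simp

/-- the elementary automorphism `1 + a E_ij`. -/
noncomputable def el (i j : ℕ) (h : i ≠ j) (a : R) : (Module.End R (ℕ →₀ R))ˣ where
  val := 1 + E i j a
  inv := 1 + E i j (-a)
  val_inv := by
    rw [mul_add, add_mul, add_mul, E_mul_E, if_neg (Ne.symm h)]
    have : E i j a + E i j (-a) = 0 := by rw [← E_add]; simp
    simp only [mul_one, one_mul, add_zero]
    rw [add_assoc, this, add_zero]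
  inv_val := by
    rw [mul_add, add_mul, add_mul, E_mul_E, if_neg (Ne.symm h)]
    have : E i j (-a) + E i j a = 0 := by rw [← E_add]; simp
    simp only [mul_one, one_mul, add_zero]
    rw [add_assoc, this, add_zero]

@[simp] theorem el_val (i j : ℕ) (h : i ≠ j) (a : R) :
    (el i j h a : Module.End R (ℕ →₀ R)) = 1 + E i j a := rfl

@[simp] theorem el_inv_val (i j : ℕ) (h : i ≠ j) (a : R) :
    ((el i j h a)⁻¹ : (Module.End R (ℕ →₀ R))ˣ) = el i j h (-a) := by
  ext1
  rfl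

theorem el_apply (i j : ℕ) (h : i ≠ j) (a : R) (v : ℕ →₀ R) :
    (el i j h a : Module.End R (ℕ →₀ R)) v = v + Finsupp.single i (a * v j) := by
  simp

/-- The generators map to elementary automorphisms. -/
noncomputable def genRep (g : Gen R) : (Module.End R (ℕ →₀ R))ˣ := el g.1.1.1 g.1.1.2 g.1.2 g.2

theorem lift_x (i j : ℕ) (h : i ≠ j) (a : R) :
    FreeGroup.lift (genRep (R := R)) (x i j h a) = el i j h a := by
  simp [x, genRep]

theorem rep_rels : ∀ r ∈ rels R, FreeGroup.lift (genRep (R := R)) r = 1 := by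
  rintro w ((⟨i, j, h, a, b, rfl⟩ | ⟨i, j, k, l, hij, hkl, a, b, hjk, hil, rfl⟩) |
    ⟨i, j, l, hij, hjl, hil, a, b, rfl⟩)
  · rw [map_mul, map_mul, map_inv, lift_x, lift_x, lift_x, mul_inv_eq_one]
    ext1
    simp only [Units.val_mul, el_val, mul_add, add_mul, E_mul_E, if_neg (Ne.symm h), mul_one,
      one_mul, E_add, add_zero]
    abel
  · rw [map_mul, map_mul, map_mul, map_inv, map_inv, lift_x, lift_x, mul_inv_eq_one,
      mul_inv_eq_iff_eq_mul]
    ext1
    simp only [Units.val_mul, el_val, mul_add, add_mul, E_mul_E, if_neg hjk, if_neg (Ne.symm hil),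
      mul_one, one_mul, add_zero]
    abel
  · rw [map_mul, map_mul, map_mul, map_mul, map_inv, map_inv, map_inv, lift_x, lift_x, lift_x,
      mul_inv_eq_one, mul_inv_eq_iff_eq_mul, mul_inv_eq_iff_eq_mul]
    ext1
    simp only [Units.val_mul, el_val, mul_add, add_mul, E_mul_E, if_neg hjl,
      if_neg (Ne.symm hij), if_neg (Ne.symm hil), if_neg (Ne.symm hjl), mul_one, one_mul,
      add_zero, if_true, if_neg hil, if_neg hij]
    abel

/-- The standard representation `St(R) → GL(ℕ →₀ R)`. -/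
noncomputable def rep : St R →* (Module.End R (ℕ →₀ R))ˣ :=
  PresentedGroup.toGroup rep_rels

/-- generators of `St(R)` (junk value `1` if `i = j`). -/
noncomputable abbrev X (i j : ℕ) (a : R) : St R := (stFam R).x i j a

theorem rep_X (i j : ℕ) (h : i ≠ j) (a : R) : rep (X i j a) = el i j h a := by
  simp only [X, stFam, h, ne_eq, not_false_eq_true, dite_true, rep]
  rw [PresentedGroup.toGroup.of]
  rfl

theorem closure_X : Subgroup.closure {g : St R | ∃ i j, i ≠ j ∧ ∃ a, g = X i j a} = ⊤ := by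
  rw [eq_top_iff, ← PresentedGroup.closure_range_of (rels R), Subgroup.closure_le]
  rintro _ ⟨⟨⟨⟨i, j⟩, hij⟩, a⟩, rfl⟩
  apply Subgroup.subset_closure
  refine ⟨i, j, hij, a, ?_⟩
  simp [X, stFam, show i ≠ j from hij]

/-! ### homs from finitely supported functions -/

theorem exists_hom {G : Type*} [Group G] (y : ℕ → R → G)
    (hadd : ∀ i a b, y i (a + b) = y i a * y i b)
    (hcomm : ∀ i a j b, y i a * y j b = y j b * y i a) :
    ∃ Ψ : Multiplicative (ℕ →₀ R) →* G,
      (∀ i a, Ψ (Multiplicative.ofAdd (Finsupp.single i a)) = y i a) ∧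
      ∀ f, Ψ f ∈ Subgroup.closure {g | ∃ i a, g = y i a} := by
  set k : Set G := {g | ∃ i a, g = y i a} with hk
  have hc : ∀ a ∈ k, ∀ b ∈ k, a * b = b * a := by
    rintro _ ⟨i, a, rfl⟩ _ ⟨j, b, rfl⟩
    exact hcomm i a j b
  have hM : IsMulCommutative (Subgroup.closure k) := Subgroup.isMulCommutative_closure hc
  let _ : CommGroup (Subgroup.closure k) :=
    { (inferInstance : Group (Subgroup.closure k)) with
      mul_comm := hM.is_comm.comm }
  let F : ℕ → R →+ Additive (Subgroup.closure k) := fun i =>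
    { toFun := fun a => Additive.ofMul ⟨y i a, Subgroup.subset_closure ⟨i, a, rfl⟩⟩
      map_zero' := by
        have h := hadd i 0 0
        rw [add_zero] at h
        have h1 : y i (0 : R) = 1 := by
          simpa using h
        apply Additive.toMul.injective
        ext1
        exact h1
      map_add' := fun a b => by
        apply Additive.toMul.injective
        ext1
        exact hadd i a b }
  let L := Finsupp.liftAddHom F
  refine ⟨(Subgroup.closure k).subtype.comp (AddMonoidHom.toMultiplicativeLeft L), ?_, ?_⟩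
  · intro i a
    have : L (Finsupp.single i a) = F i a := by simp [L]
    change ((Additive.toMul (L (Finsupp.single i a)) : Subgroup.closure k) : G) = y i a
    rw [this]
    rfl
  · intro f
    exact ((Additive.toMul (L (Multiplicative.toAdd f)) : Subgroup.closure k)).2

/-! ### column and row subgroups -/

/-- the generator `x_{in}(a)` for `i ≠ n`, and `1` for `i = n`. -/
theorem X_self (i : ℕ) (a : R) : X i i a = (1 : St R) := by
  simp [X, stFam]

theorem X_zero (i j : ℕ) : X i j (0 : R) = 1 := by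
  by_cases h : i = j
  · subst h; exact X_self i 0
  · have h1 := (stFam R).add i j h 0 0
    rw [add_zero] at h1
    simpa using h1

theorem X_inv (i j : ℕ) (a : R) : (X i j a)⁻¹ = X i j (-a) := by
  by_cases h : i = j
  · subst h; rw [X_self, X_self, inv_one]
  · rw [inv_eq_iff_mul_eq_one, X, X, (stFam R).add i j h]
    simp [X_zero i j]

theorem X_add (i j : ℕ) (a b : R) : X i j (a + b) = X i j a * X i j b := by
  by_cases h : i = j
  · subst h; simp [X_self]
  · exact ((stFam R).add i j h a b).symm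

/-- column subgroup -/
def col (R : Type*) [CommRing R] (n : ℕ) : Subgroup (St R) :=
  Subgroup.closure {g | ∃ i a, g = X i n a}

/-- row subgroup -/
def row (R : Type*) [CommRing R] (n : ℕ) : Subgroup (St R) :=
  Subgroup.closure {g | ∃ j a, g = X n j a}

/-- the subgroup generated by `x_{ij}(a)` with `i, j ≠ n`. -/
def away (R : Type*) [CommRing R] (n : ℕ) : Subgroup (St R) :=
  Subgroup.closure {g | ∃ i j, i ≠ j ∧ i ≠ n ∧ j ≠ n ∧ ∃ a, g = X i j a}

theorem X_commute_col (n i j : ℕ) (a b : R) : X i n a * X j n b = X j n b * X i n a := by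
  by_cases hi : i = n
  · subst hi; simp [X_self]
  by_cases hj : j = n
  · subst hj; simp [X_self]
  exact (stFam R).comm i n j n hi hj (Ne.symm hj) hi a b

theorem X_commute_row (n i j : ℕ) (a b : R) : X n i a * X n j b = X n j b * X n i a := by
  by_cases hi : i = n
  · subst hi; simp [X_self]
  by_cases hj : j = n
  · subst hj; simp [X_self]
  exact (stFam R).comm n i n j (Ne.symm hi) (Ne.symm hj) hi (Ne.symm hj) a b

theorem col_ker (n : ℕ) (p : St R) (hp : p ∈ col R n) (h1 : rep p = 1) : p = 1 := by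
  obtain ⟨Ψ, hΨ, -⟩ := exists_hom (fun i a => (X i n a : St R)) (fun i a b => X_add i n a b)
    (fun i a j b => X_commute_col n i j a b)
  have hr : ∀ (f : ℕ →₀ R) (v : ℕ →₀ R),
      (rep (Ψ (Multiplicative.ofAdd f)) : Module.End R (ℕ →₀ R)) v = v + v n • (f.erase n) := by
    intro f
    induction f using Finsupp.induction_linear with
    | zero => intro v; simp
    | add f g hf hg =>
      intro v
      rw [ofAdd_add, map_mul, map_mul, Units.val_mul, Module.End.mul_apply, hg, hf,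
        Finsupp.erase_add]
      simp only [Finsupp.add_apply, Finsupp.smul_apply, Finsupp.erase_same, smul_eq_mul, mul_zero,
        add_zero, smul_add]
      abel
    | single i a =>
      intro v
      rw [hΨ]
      by_cases hi : i = n
      · subst hi; simp [X_self]
      · rw [rep_X i n hi, el_apply, Finsupp.erase_single_ne (Ne.symm hi)]
        simp [mul_comm]
  have hsurj : ∃ f : ℕ →₀ R, p = Ψ (Multiplicative.ofAdd f) ∧ f n = 0 := by
    refine Subgroup.closure_induction (p := fun p _ => ∃ f : ℕ →₀ R,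
      p = Ψ (Multiplicative.ofAdd f) ∧ f n = 0) ?_ ?_ ?_ ?_ hp
    · rintro _ ⟨i, a, rfl⟩
      by_cases hi : i = n
      · subst hi
        refine ⟨0, ?_, rfl⟩
        simp [X_self]
      · refine ⟨Finsupp.single i a, (hΨ i a).symm, ?_⟩
        simp [Finsupp.single_apply, hi]
    · exact ⟨0, by simp, rfl⟩
    · rintro _ _ _ _ ⟨f, rfl, hf⟩ ⟨g, rfl, hg⟩
      exact ⟨f + g, by rw [ofAdd_add, map_mul], by simp [hf, hg]⟩
    · rintro _ _ ⟨f, rfl, hf⟩
      exact ⟨-f, by rw [ofAdd_neg, map_inv], by simp [hf]⟩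
  obtain ⟨f, rfl, hf⟩ := hsurj
  have h2 := hr f (Finsupp.single n 1)
  rw [h1] at h2
  simp only [Units.val_one, Module.End.one_apply, Finsupp.single_eq_same, one_smul] at h2
  have h3 : f.erase n = 0 := by simpa using h2
  have h4 : f = 0 := by
    rw [← Finsupp.single_add_erase n f, h3, hf]
    simp
  rw [h4]; simp

theorem row_ker (n : ℕ) (p : St R) (hp : p ∈ row R n) (h1 : rep p = 1) : p = 1 := by
  obtain ⟨Ψ, hΨ, -⟩ := exists_hom (fun i a => (X n i a : St R)) (fun i a b => X_add n i a b)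
    (fun i a j b => X_commute_row n i j a b)
  have hr : ∀ (f : ℕ →₀ R) (v : ℕ →₀ R),
      (rep (Ψ (Multiplicative.ofAdd f)) : Module.End R (ℕ →₀ R)) v =
        v + Finsupp.single n ((f.erase n).sum (fun j a => a * v j)) := by
    intro f
    induction f using Finsupp.induction_linear with
    | zero => intro v; simp
    | add f g hf hg =>
      intro v
      rw [ofAdd_add, map_mul, map_mul, Units.val_mul, Module.End.mul_apply, hg, hf,
        Finsupp.erase_add, Finsupp.sum_add_index' (by simp) (by intros; ring)]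
      have : (f.erase n).sum (fun j a => a * (v + Finsupp.single n ((g.erase n).sum fun j a => a * v j)) j)
          = (f.erase n).sum (fun j a => a * v j) := by
        apply Finsupp.sum_congr
        intro j hj
        have hjn : j ≠ n := by
          rintro rfl
          simp at hj
        simp [Finsupp.single_apply, Ne.symm hjn]
      rw [this, Finsupp.single_add]
      abel
    | single i a =>
      intro v
      rw [hΨ]
      by_cases hi : i = n
      · subst hi; simp [X_self]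
      · rw [rep_X n i (Ne.symm hi), el_apply, Finsupp.erase_single_ne (Ne.symm hi)]
        simp
  have hsurj : ∃ f : ℕ →₀ R, p = Ψ (Multiplicative.ofAdd f) ∧ f n = 0 := by
    refine Subgroup.closure_induction (p := fun p _ => ∃ f : ℕ →₀ R,
      p = Ψ (Multiplicative.ofAdd f) ∧ f n = 0) ?_ ?_ ?_ ?_ hp
    · rintro _ ⟨i, a, rfl⟩
      by_cases hi : i = n
      · subst hi
        refine ⟨0, ?_, rfl⟩
        simp [X_self]
      · refine ⟨Finsupp.single i a, (hΨ i a).symm, ?_⟩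
        simp [Finsupp.single_apply, hi]
    · exact ⟨0, by simp, rfl⟩
    · rintro _ _ _ _ ⟨f, rfl, hf⟩ ⟨g, rfl, hg⟩
      exact ⟨f + g, by rw [ofAdd_add, map_mul], by simp [hf, hg]⟩
    · rintro _ _ ⟨f, rfl, hf⟩
      exact ⟨-f, by rw [ofAdd_neg, map_inv], by simp [hf]⟩
  obtain ⟨f, rfl, hf⟩ := hsurj
  have h4 : f = 0 := by
    ext j
    by_cases hj : j = n
    · subst hj; simpa using hf
    · have h2 := hr f (Finsupp.single j 1)
      rw [h1] at h2
      simp only [Units.val_one, Module.End.one_apply] at h2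
      have h3 : (f.erase n).sum (fun j' a => a * (Finsupp.single j (1:R)) j') = 0 := by
        have h5 := left_eq_add.mp h2
        have h6 := DFunLike.congr_fun h5 n
        rwa [Finsupp.single_eq_same] at h6
      rw [Finsupp.sum_eq_single j] at h3
      · simpa [Finsupp.erase_ne hj] using h3
      · intro b _ hb
        simp [Finsupp.single_apply, Ne.symm hb]
      · simp
  rw [h4]; simp

/-! ### conjugation -/

theorem conj_col (n i j k : ℕ) (hij : i ≠ j) (hi : i ≠ n) (hj : j ≠ n) (a b : R) :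
    X i j a * X k n b * (X i j a)⁻¹ = (if j = k then X i n (a * b) else 1) * X k n b := by
  by_cases hk : k = n
  · subst hk
    rw [if_neg hj]; simp [X_self]
  by_cases hjk : j = k
  · subst hjk
    rw [if_pos rfl]
    have h := (stFam R).mul i j n hij hj hi a b
    rw [mul_inv_eq_iff_eq_mul] at h
    exact h
  · rw [if_neg hjk, one_mul, mul_inv_eq_iff_eq_mul]
    exact (stFam R).comm i j k n hij hk hjk hi a b

theorem conj_row (n i j k : ℕ) (hij : i ≠ j) (hi : i ≠ n) (hj : j ≠ n) (a b : R) :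
    X i j a * X n k b * (X i j a)⁻¹ = (if i = k then X n j (-(b * a)) else 1) * X n k b := by
  by_cases hk : k = n
  · subst hk
    rw [if_neg hi]; simp [X_self]
  by_cases hik : i = k
  · subst hik
    rw [if_pos rfl]
    have h := (stFam R).mul n i j (Ne.symm hi) hij (Ne.symm hj) b a
    rw [mul_inv_eq_iff_eq_mul, mul_inv_eq_iff_eq_mul] at h
    rw [mul_inv_eq_iff_eq_mul, ← X_inv, mul_assoc, eq_inv_mul_iff_mul_eq]
    rw [← mul_assoc]
    exact h.symm
  · rw [if_neg hik, one_mul, mul_inv_eq_iff_eq_mul]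
    exact (stFam R).comm i j n k hij (Ne.symm hk) hj hik a b

theorem X_mem_col (n i : ℕ) (a : R) : X i n a ∈ col R n := Subgroup.subset_closure ⟨i, a, rfl⟩

theorem X_mem_row (n i : ℕ) (a : R) : X n i a ∈ row R n := Subgroup.subset_closure ⟨i, a, rfl⟩

theorem gen_conj_mem_col (n i j : ℕ) (hij : i ≠ j) (hi : i ≠ n) (hj : j ≠ n) (a : R) (p : St R)
    (hp : p ∈ col R n) : X i j a * p * (X i j a)⁻¹ ∈ col R n := by
  have : col R n ≤ (col R n).comap (MulAut.conj (X i j a : St R)).toMonoidHom := by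
    rw [col, Subgroup.closure_le]
    rintro _ ⟨k, b, rfl⟩
    change X i j a * X k n b * (X i j a)⁻¹ ∈ col R n
    rw [conj_col n i j k hij hi hj]
    refine mul_mem ?_ (X_mem_col n k b)
    split_ifs
    · exact X_mem_col n i _
    · exact one_mem _
  exact this hp

theorem gen_conj_mem_row (n i j : ℕ) (hij : i ≠ j) (hi : i ≠ n) (hj : j ≠ n) (a : R) (p : St R)
    (hp : p ∈ row R n) : X i j a * p * (X i j a)⁻¹ ∈ row R n := by
  have : row R n ≤ (row R n).comap (MulAut.conj (X i j a : St R)).toMonoidHom := by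
    rw [row, Subgroup.closure_le]
    rintro _ ⟨k, b, rfl⟩
    change X i j a * X n k b * (X i j a)⁻¹ ∈ row R n
    rw [conj_row n i j k hij hi hj]
    refine mul_mem ?_ (X_mem_row n k b)
    split_ifs
    · exact X_mem_row n j _
    · exact one_mem _
  exact this hp

theorem away_conj_mem (n : ℕ) (P : Subgroup (St R))
    (hP : ∀ i j, i ≠ j → i ≠ n → j ≠ n → ∀ (a : R) (p : St R), p ∈ P →
      X i j a * p * (X i j a)⁻¹ ∈ P)
    (z : St R) (hz : z ∈ away R n) : ∀ p ∈ P, z * p * z⁻¹ ∈ P := by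
  have key : (∀ p ∈ P, z * p * z⁻¹ ∈ P) ∧ (∀ p ∈ P, z⁻¹ * p * z ∈ P) := by
    refine Subgroup.closure_induction (p := fun z _ => (∀ p ∈ P, z * p * z⁻¹ ∈ P) ∧
      (∀ p ∈ P, z⁻¹ * p * z ∈ P)) ?_ ?_ ?_ ?_ hz
    · rintro _ ⟨i, j, hij, hi, hj, a, rfl⟩
      refine ⟨hP i j hij hi hj a, fun p hp => ?_⟩
      have := hP i j hij hi hj (-a) p hp
      rw [← X_inv, inv_inv] at this
      exact this
    · simp
    · rintro x y _ _ ⟨hx1, hx2⟩ ⟨hy1, hy2⟩
      refine ⟨fun p hp => ?_, fun p hp => ?_⟩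
      · have := hx1 _ (hy1 p hp)
        rw [mul_inv_rev]
        simpa only [mul_assoc] using this
      · have := hy2 _ (hx2 p hp)
        rw [mul_inv_rev]
        simpa only [mul_assoc] using this
    · rintro x _ ⟨hx1, hx2⟩
      refine ⟨fun p hp => ?_, fun p hp => ?_⟩
      · rw [inv_inv]; exact hx2 p hp
      · rw [inv_inv]; exact hx1 p hp
  exact key.1

theorem exists_away (z : St R) : ∃ n, z ∈ away R n := by
  have key : ∃ N, ∀ n, N ≤ n → z ∈ away R n := by
    have hz : z ∈ Subgroup.closure {g : St R | ∃ i j, i ≠ j ∧ ∃ a, g = X i j a} := by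
      rw [closure_X]; trivial
    refine Subgroup.closure_induction (p := fun z _ => ∃ N, ∀ n, N ≤ n → z ∈ away R n)
      ?_ ?_ ?_ ?_ hz
    · rintro _ ⟨i, j, hij, a, rfl⟩
      refine ⟨max i j + 1, fun n hn => Subgroup.subset_closure ⟨i, j, hij, ?_, ?_, a, rfl⟩⟩
      · have := le_max_left i j; omega
      · have := le_max_right i j; omega
    · exact ⟨0, fun n _ => one_mem _⟩
    · rintro x y _ _ ⟨N, hN⟩ ⟨M, hM⟩
      exact ⟨max N M, fun n hn => mul_mem (hN n (le_trans (le_max_left _ _) hn))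
        (hM n (le_trans (le_max_right _ _) hn))⟩
    · rintro x _ ⟨N, hN⟩
      exact ⟨N, fun n hn => inv_mem (hN n hn)⟩
  obtain ⟨N, hN⟩ := key
  exact ⟨N, hN N le_rfl⟩

/-- **FACT A**: the kernel of `St(R) → GL(R)` is central. -/
theorem ker_central (z : St R) (hz : rep z = 1) (g : St R) : z * g = g * z := by
  obtain ⟨n, hn⟩ := exists_away z
  have hcol : ∀ p ∈ col R n, z * p * z⁻¹ = p := by
    intro p hp
    have h1 := away_conj_mem n (col R n)
      (fun i j hij hi hj a p hp => gen_conj_mem_col n i j hij hi hj a p hp) z hn p hp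
    have h2 : z * p * z⁻¹ * p⁻¹ ∈ col R n := mul_mem h1 (inv_mem hp)
    have h3 : rep (z * p * z⁻¹ * p⁻¹) = 1 := by
      rw [map_mul, map_mul, map_mul, map_inv, map_inv, hz]; simp
    exact mul_inv_eq_one.mp (col_ker n _ h2 h3)
  have hrow : ∀ p ∈ row R n, z * p * z⁻¹ = p := by
    intro p hp
    have h1 := away_conj_mem n (row R n)
      (fun i j hij hi hj a p hp => gen_conj_mem_row n i j hij hi hj a p hp) z hn p hp
    have h2 : z * p * z⁻¹ * p⁻¹ ∈ row R n := mul_mem h1 (inv_mem hp)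
    have h3 : rep (z * p * z⁻¹ * p⁻¹) = 1 := by
      rw [map_mul, map_mul, map_mul, map_inv, map_inv, hz]; simp
    exact mul_inv_eq_one.mp (row_ker n _ h2 h3)
  have hc : ∀ i a, z * X i n a = X i n a * z := fun i a =>
    mul_inv_eq_iff_eq_mul.mp (hcol _ (X_mem_col n i a))
  have hr : ∀ i a, z * X n i a = X n i a * z := fun i a =>
    mul_inv_eq_iff_eq_mul.mp (hrow _ (X_mem_row n i a))
  have hgen : Subgroup.closure {g : St R | ∃ i j, i ≠ j ∧ ∃ a, g = X i j a} ≤
      Subgroup.centralizer {z} := by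
    rw [Subgroup.closure_le]
    rintro _ ⟨i, j, hij, a, rfl⟩
    by_cases hj : j = n
    · subst hj
      rw [SetLike.mem_coe, Subgroup.mem_centralizer_singleton_iff]
      exact (hc i a).symm
    by_cases hi : i = n
    · subst hi
      rw [SetLike.mem_coe, Subgroup.mem_centralizer_singleton_iff]
      exact (hr j a).symm
    · have h := (stFam R).mul i n j hi (Ne.symm hj) hij a 1
      rw [mul_one] at h
      change _ = X i j a at h
      rw [← h]
      have m1 : X i n a ∈ Subgroup.centralizer ({z} : Set (St R)) :=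
        Subgroup.mem_centralizer_singleton_iff.mpr (hc i a).symm
      have m2 : X n j (1 : R) ∈ Subgroup.centralizer ({z} : Set (St R)) :=
        Subgroup.mem_centralizer_singleton_iff.mpr (hr j 1).symm
      exact mul_mem (mul_mem (mul_mem m1 m2) (inv_mem m1)) (inv_mem m2)
  have hg : g ∈ Subgroup.centralizer ({z} : Set (St R)) := by
    apply hgen
    rw [closure_X]; trivial
  exact (Subgroup.mem_centralizer_singleton_iff.mp hg).symm

theorem rep_val_eq_rho (g : St R) : (rep g : Module.End R (ℕ →₀ R)) = rho g := by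
  induction g using St_induction with
  | h1 => simp
  | hX i j h a =>
    rw [rho_X]
    have : Crest.Agent.R171.X i j h a = X i j a := by
      simp only [X, stFam, ne_eq, h, not_false_eq_true, dite_true]
      rfl
    rw [this, rep_X i j h, el_val]
    congr 1
    apply LinearMap.ext
    intro v
    rw [E_apply, R171.E_apply]
  | hmul g g' h1 h2 => rw [map_mul, map_mul, Units.val_mul, h1, h2]

end Crest.Agent.R171.Central

namespace Crest.Agent.R171

/-- **FACT A**: the kernel of `rho` is central. -/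
theorem rho_ker_central {R : Type*} [CommRing R] (g : St R) (hg : rho g = 1) (h : St R) :
    g * h = h * g := by
  apply Central.ker_central
  ext1
  rw [Central.rep_val_eq_rho, hg]
  rfl

end Crest.Agent.R171
end

-- ▼ part R171/Dennis5
section

/-!
Dennis trace 3-cocycle by truncation: for a group `G` with a representation
`ρ : G →* Module.End A (ℕ →₀ A)` by endomorphisms differing from the identity in finitely many
matrix entries, and derivation data `𝒟 : DerData A M`, the function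
`(u, v, w) ↦ tr (q((uvw)⁻¹) D_a(u) D_b(v) D_c(w))` is a 3-cocycle with values in `M`.
-/

set_option autoImplicit false

open Matrix

namespace Crest.Agent.R171.D5

section fin

variable {A M : Type} [CommRing A] [CommRing M] (𝒟 : DerData A M)

theorem derMapZero (k : Fin 3) : 𝒟.D k 0 = 0 := by
  have h := 𝒟.add k 0 0
  rw [add_zero] at h
  exact left_eq_add.1 h

theorem derMapOne (k : Fin 3) : 𝒟.D k 1 = 0 := by
  have h := 𝒟.leib k 1 1
  rw [mul_one, _root_.map_one, one_mul, mul_one] at h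
  exact left_eq_add.1 h

/-- the additive version of `D k` -/
def derHom (k : Fin 3) : A →+ M where
  toFun := 𝒟.D k
  map_zero' := derMapZero 𝒟 k
  map_add' := 𝒟.add k

theorem derMapIte (k : Fin 3) (p : Prop) [Decidable p] :
    𝒟.D k (if p then 1 else 0) = 0 := by
  split_ifs
  · exact derMapOne 𝒟 k
  · exact derMapZero 𝒟 k

variable {n : Type} [Fintype n] [DecidableEq n]

omit [DecidableEq n] in
theorem derMapMatrixMul (k : Fin 3) (U V : Matrix n n A) :
    (U * V).map (𝒟.D k) = U.map 𝒟.q * V.map (𝒟.D k) + U.map (𝒟.D k) * V.map 𝒟.q := by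
  ext i j
  simp only [Matrix.map_apply, Matrix.mul_apply, Matrix.add_apply]
  have h1 : 𝒟.D k (∑ l, U i l * V l j) = ∑ l, 𝒟.D k (U i l * V l j) :=
    map_sum (derHom 𝒟 k) _ _
  rw [h1, ← Finset.sum_add_distrib]
  exact Finset.sum_congr rfl fun l _ => 𝒟.leib k _ _

/-- The basic trilinear expression at a finite level; `P` plays the role of `(UVW)⁻¹`. -/
def psi (k : Fin 3 → Fin 3) (P U V W : Matrix n n A) : M :=
  trace (P.map 𝒟.q * U.map (𝒟.D (k 0)) * V.map (𝒟.D (k 1)) * W.map (𝒟.D (k 2)))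

theorem psi_cocycle (k : Fin 3 → Fin 3) (a b c d a' b' c' d' : Matrix n n A)
    (ha : a' * a = 1) (hd : d * d' = 1) :
    psi 𝒟 k (d' * c' * b') b c d - psi 𝒟 k (d' * c' * b' * a') (a * b) c d +
      psi 𝒟 k (d' * c' * b' * a') a (b * c) d - psi 𝒟 k (d' * c' * b' * a') a b (c * d) +
      psi 𝒟 k (c' * b' * a') a b c = 0 := by
  have hq : ∀ X Y : Matrix n n A, (X * Y).map 𝒟.q = X.map 𝒟.q * Y.map 𝒟.q := fun X Y =>
    Matrix.map_mul
  have hq1 : (1 : Matrix n n A).map 𝒟.q = 1 := Matrix.map_one _ (_root_.map_zero _) (_root_.map_one _)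
  have ha' : a'.map 𝒟.q * a.map 𝒟.q = 1 := by rw [← hq, ha, hq1]
  have hd' : d.map 𝒟.q * d'.map 𝒟.q = 1 := by rw [← hq, hd, hq1]
  unfold psi
  simp only [derMapMatrixMul, hq]
  obtain ⟨qa, hqa⟩ : ∃ X, X = a.map 𝒟.q := ⟨_, rfl⟩
  obtain ⟨qb, hqb⟩ : ∃ X, X = b.map 𝒟.q := ⟨_, rfl⟩
  obtain ⟨qc, hqc⟩ : ∃ X, X = c.map 𝒟.q := ⟨_, rfl⟩
  obtain ⟨qd, hqd⟩ : ∃ X, X = d.map 𝒟.q := ⟨_, rfl⟩
  obtain ⟨pa, hpa⟩ : ∃ X, X = a'.map 𝒟.q := ⟨_, rfl⟩
  obtain ⟨pb, hpb⟩ : ∃ X, X = b'.map 𝒟.q := ⟨_, rfl⟩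
  obtain ⟨pc, hpc⟩ : ∃ X, X = c'.map 𝒟.q := ⟨_, rfl⟩
  obtain ⟨pd, hpd⟩ : ∃ X, X = d'.map 𝒟.q := ⟨_, rfl⟩
  rw [← hpa, ← hqa] at ha'
  rw [← hpd, ← hqd] at hd'
  rw [← hpa, ← hqa, ← hqb, ← hqc, ← hqd, ← hpb, ← hpc, ← hpd]
  generalize a.map (𝒟.D (k 0)) = A0
  generalize b.map (𝒟.D (k 0)) = B0
  generalize b.map (𝒟.D (k 1)) = B1
  generalize c.map (𝒟.D (k 1)) = C1
  generalize c.map (𝒟.D (k 2)) = C2
  generalize d.map (𝒟.D (k 2)) = D2
  have e1 : pd * pc * pb * pa * (qa * B0 + A0 * qb) * C1 * D2 =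
      pd * pc * pb * B0 * C1 * D2 + pd * pc * pb * pa * A0 * qb * C1 * D2 := by
    have : pd * pc * pb * pa * (qa * B0) = pd * pc * pb * B0 := by
      rw [← mul_assoc, mul_assoc (pd * pc * pb) pa qa, ha', mul_one]
    rw [mul_add, add_mul, add_mul, this, ← mul_assoc]
  have e2 : pd * pc * pb * pa * A0 * (qb * C1 + B1 * qc) * D2 =
      pd * pc * pb * pa * A0 * qb * C1 * D2 + pd * pc * pb * pa * A0 * B1 * qc * D2 := by
    rw [mul_add, add_mul, ← mul_assoc, ← mul_assoc]
  have e3 : pd * pc * pb * pa * A0 * B1 * (qc * D2 + C2 * qd) =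
      pd * pc * pb * pa * A0 * B1 * qc * D2 + pd * (pc * pb * pa * A0 * B1 * C2 * qd) := by
    rw [mul_add]; simp only [mul_assoc]
  have e4 : trace (pd * (pc * pb * pa * A0 * B1 * C2 * qd)) =
      trace (pc * pb * pa * A0 * B1 * C2) := by
    rw [trace_mul_comm, mul_assoc _ qd pd, hd', mul_one]
  rw [e1, e2, e3, trace_add, trace_add, trace_add, e4]
  abel

end fin

section infinite

variable {A M : Type} [CommRing A] [CommRing M] (𝒟 : DerData A M)

/-- matrix entries of an endomorphism of the free module on `ℕ` -/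
noncomputable def ent (T : Module.End A (ℕ →₀ A)) (i j : ℕ) : A := T (Finsupp.single j 1) i

/-- `T` has trivial entries outside the `s × s` square. -/
def Bd (s : Set ℕ) (T : Module.End A (ℕ →₀ A)) : Prop :=
  ∀ i j, (i ∉ s ∨ j ∉ s) → ent T i j = if i = j then 1 else 0

theorem Bd.mono {s t : Set ℕ} (h : s ⊆ t) {T : Module.End A (ℕ →₀ A)} (hT : Bd s T) : Bd t T :=
  fun i j hij => hT i j (hij.imp (fun h' h'' => h' (h h'')) (fun h' h'' => h' (h h'')))

theorem ent_one (i j : ℕ) : ent (1 : Module.End A (ℕ →₀ A)) i j = if i = j then 1 else 0 := by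
  simp only [ent, Module.End.one_apply, Finsupp.single_apply]
  simp only [eq_comm]

theorem Bd_one (s : Set ℕ) : Bd s (1 : Module.End A (ℕ →₀ A)) := fun i j _ => ent_one i j

/-- entries of a product -/
theorem ent_mul (S T : Module.End A (ℕ →₀ A)) (i j : ℕ) :
    ent (S * T) i j = ∑ k ∈ (T (Finsupp.single j 1)).support, ent S i k * ent T k j := by
  have h1 : T (Finsupp.single j 1) = ∑ k ∈ (T (Finsupp.single j 1)).support,
      (T (Finsupp.single j 1) k) • Finsupp.single k (1 : A) := by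
    conv_lhs => rw [← Finsupp.sum_single (T (Finsupp.single j 1))]
    rw [Finsupp.sum]
    refine Finset.sum_congr rfl fun k _ => ?_
    rw [Finsupp.smul_single, smul_eq_mul, mul_one]
  show (S (T (Finsupp.single j 1))) i = _
  conv_lhs => rw [h1]
  rw [map_sum, Finsupp.finsetSum_apply]
  refine Finset.sum_congr rfl fun k _ => ?_
  rw [map_smul, Finsupp.smul_apply, smul_eq_mul, mul_comm]
  rfl

/-- the finite block of `T` along `e : ι → ℕ` -/
noncomputable def blk {ι : Type} (e : ι → ℕ) (T : Module.End A (ℕ →₀ A)) : Matrix ι ι A :=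
  Matrix.of fun i j => ent T (e i) (e j)

theorem ent_mul_of_mem {ι : Type} [Fintype ι] {e : ι → ℕ} (he : Function.Injective e)
    {S T : Module.End A (ℕ →₀ A)} (hT : Bd (Set.range e) T) (i : ℕ) (j : ι) :
    ent (S * T) i (e j) = ∑ k : ι, ent S i (e k) * ent T (e k) (e j) := by
  classical
  rw [ent_mul]
  have h1 : (T (Finsupp.single (e j) 1)).support ⊆ Finset.univ.image e := by
    intro k hk
    rw [Finset.mem_image]
    by_contra hcon
    have hk' : k ∉ Set.range e := fun ⟨l, hl⟩ => hcon ⟨l, Finset.mem_univ _, hl⟩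
    have h2 := hT k (e j) (Or.inl hk')
    rw [if_neg (fun h => hk' ⟨j, h.symm⟩)] at h2
    exact (Finsupp.mem_support_iff.1 hk) h2
  rw [Finset.sum_subset h1 (fun k _ hk => by
    have : ent T k (e j) = 0 := Finsupp.notMem_support_iff.1 hk
    rw [this, mul_zero])]
  rw [Finset.sum_image (fun a _ b _ hab => he hab)]

theorem Bd.mul {ι : Type} [Fintype ι] {e : ι → ℕ} (he : Function.Injective e)
    {S T : Module.End A (ℕ →₀ A)} (hS : Bd (Set.range e) S) (hT : Bd (Set.range e) T) :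
    Bd (Set.range e) (S * T) := by
  classical
  intro i j hij
  by_cases hj : j ∈ Set.range e
  · obtain ⟨j, rfl⟩ := hj
    have hi : i ∉ Set.range e := hij.resolve_right (fun h => h ⟨j, rfl⟩)
    rw [ent_mul_of_mem he hT, Finset.sum_eq_zero]
    · rw [if_neg (fun h => hi ⟨j, h.symm⟩)]
    · intro k _
      rw [hS i (e k) (Or.inl hi), if_neg (fun h => hi ⟨k, h.symm⟩), zero_mul]
  · have h1 : T (Finsupp.single j 1) = Finsupp.single j 1 := by
      ext k
      have := hT k j (Or.inr hj)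
      rw [Finsupp.single_apply]
      simpa [ent, eq_comm] using this
    have h2 : ent (S * T) i j = ent S i j := by
      show (S (T (Finsupp.single j 1))) i = _
      rw [h1]; rfl
    rw [h2]
    exact hS i j (Or.inr hj)

theorem blk_mul {ι : Type} [Fintype ι] {e : ι → ℕ} (he : Function.Injective e)
    {S T : Module.End A (ℕ →₀ A)} (hT : Bd (Set.range e) T) :
    blk e (S * T) = blk e S * blk e T := by
  ext i j
  simp only [blk, Matrix.of_apply, Matrix.mul_apply]
  exact ent_mul_of_mem he hT _ _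

theorem blk_one {ι : Type} [DecidableEq ι] {e : ι → ℕ} (he : Function.Injective e) :
    blk e (1 : Module.End A (ℕ →₀ A)) = 1 := by
  ext i j
  simp only [blk, Matrix.of_apply, ent_one, Matrix.one_apply, he.eq_iff]

/-- the infinite trace expression -/
noncomputable def psiInf (k : Fin 3 → Fin 3) (P U V W : Module.End A (ℕ →₀ A)) : M :=
  ∑ᶠ p : ℕ × ℕ × ℕ × ℕ, 𝒟.q (ent P p.1 p.2.1) * 𝒟.D (k 0) (ent U p.2.1 p.2.2.1) *
    𝒟.D (k 1) (ent V p.2.2.1 p.2.2.2) * 𝒟.D (k 2) (ent W p.2.2.2 p.1)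

theorem psiInf_eq (k : Fin 3 → Fin 3) {ι : Type} [Fintype ι] {e : ι → ℕ}
    (he : Function.Injective e) (P : Module.End A (ℕ →₀ A)) {U V W : Module.End A (ℕ →₀ A)}
    (hU : Bd (Set.range e) U) (hV : Bd (Set.range e) V) (hW : Bd (Set.range e) W) :
    psiInf 𝒟 k P U V W = psi 𝒟 k (blk e P) (blk e U) (blk e V) (blk e W) := by
  classical
  have hD : ∀ (T : Module.End A (ℕ →₀ A)), Bd (Set.range e) T → ∀ l i j,
      (i ∉ Set.range e ∨ j ∉ Set.range e) → 𝒟.D l (ent T i j) = 0 := by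
    intro T hT l i j hij
    rw [hT i j hij]; exact derMapIte 𝒟 l _
  let φ : ι × ι × ι × ι → ℕ × ℕ × ℕ × ℕ := fun p => (e p.1, e p.2.1, e p.2.2.1, e p.2.2.2)
  have hφ : Function.Injective φ := by
    rintro ⟨a, b, c, d⟩ ⟨a', b', c', d'⟩ h
    simp only [φ, Prod.mk.injEq] at h
    obtain ⟨h1, h2, h3, h4⟩ := h
    rw [he h1, he h2, he h3, he h4]
  set g : ℕ × ℕ × ℕ × ℕ → M := fun p => 𝒟.q (ent P p.1 p.2.1) *
    𝒟.D (k 0) (ent U p.2.1 p.2.2.1) * 𝒟.D (k 1) (ent V p.2.2.1 p.2.2.2) *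
    𝒟.D (k 2) (ent W p.2.2.2 p.1) with hg
  have hsupp : Function.support g ⊆ Set.range φ := by
    rintro ⟨a, b, c, d⟩ hp
    by_contra hcon
    apply hp
    have h1 : a ∉ Set.range e ∨ b ∉ Set.range e ∨ c ∉ Set.range e ∨ d ∉ Set.range e := by
      by_contra hall
      push Not at hall
      obtain ⟨⟨a', rfl⟩, ⟨b', rfl⟩, ⟨c', rfl⟩, ⟨d', rfl⟩⟩ := hall
      exact hcon ⟨(a', b', c', d'), rfl⟩
    simp only [hg]
    rcases h1 with h | h | h | h
    · rw [hD W hW _ _ _ (Or.inr h), mul_zero]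
    · rw [hD U hU _ _ _ (Or.inl h), mul_zero, zero_mul, zero_mul]
    · rw [hD U hU _ _ _ (Or.inr h), mul_zero, zero_mul, zero_mul]
    · rw [hD V hV _ _ _ (Or.inr h), mul_zero, zero_mul]
  have h1 : psiInf 𝒟 k P U V W = ∑ p : ι × ι × ι × ι, g (φ p) := by
    rw [← finsum_eq_sum_of_fintype, ← finsum_mem_range hφ]
    rw [finsum_mem_def, Set.indicator_eq_self.2 hsupp]
    rfl
  rw [h1]
  simp only [psi, Matrix.trace, Matrix.diag_apply, Matrix.mul_apply, Matrix.map_apply, blk,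
    Matrix.of_apply, Fintype.sum_prod_type, hg, φ]
  refine Finset.sum_congr rfl fun a _ => ?_
  -- reorder the sums
  simp only [Finset.sum_mul]
  rw [Finset.sum_comm]
  have h2 : ∀ c : ι, ∑ b : ι, ∑ d : ι, 𝒟.q (ent P (e a) (e b)) * 𝒟.D (k 0) (ent U (e b) (e c)) *
      𝒟.D (k 1) (ent V (e c) (e d)) * 𝒟.D (k 2) (ent W (e d) (e a)) =
      ∑ d : ι, ∑ b : ι, 𝒟.q (ent P (e a) (e b)) * 𝒟.D (k 0) (ent U (e b) (e c)) *
      𝒟.D (k 1) (ent V (e c) (e d)) * 𝒟.D (k 2) (ent W (e d) (e a)) := fun c => Finset.sum_comm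
  simp_rw [h2]
  rw [Finset.sum_comm]

/-- **Dennis trace cocycle.** -/
theorem exists_dennis5 {G : Type} [Group G] (ρ : G →* Module.End A (ℕ →₀ A))
    (hfin : ∀ g, ∃ N : ℕ, Bd (Set.Iio N) (ρ g)) (k : Fin 3 → Fin 3) :
    ∃ f : Cocycle3 G M, ∀ u v w : G, f.f u v w = psiInf 𝒟 k (ρ (u * v * w)⁻¹) (ρ u) (ρ v) (ρ w) := by
  classical
  refine ⟨⟨fun u v w => psiInf 𝒟 k (ρ (u * v * w)⁻¹) (ρ u) (ρ v) (ρ w), ?_⟩, fun u v w => rfl⟩
  intro a b c d
  obtain ⟨Na, hNa⟩ := hfin a
  obtain ⟨Nb, hNb⟩ := hfin b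
  obtain ⟨Nc, hNc⟩ := hfin c
  obtain ⟨Nd, hNd⟩ := hfin d
  obtain ⟨Na', hNa'⟩ := hfin a⁻¹
  obtain ⟨Nb', hNb'⟩ := hfin b⁻¹
  obtain ⟨Nc', hNc'⟩ := hfin c⁻¹
  obtain ⟨Nd', hNd'⟩ := hfin d⁻¹
  set N : ℕ := Na + Nb + Nc + Nd + Na' + Nb' + Nc' + Nd' with hN
  let e : Fin N → ℕ := Fin.val
  have he : Function.Injective e := Fin.val_injective
  have hr : Set.range e = Set.Iio N := by
    ext i
    constructor
    · rintro ⟨j, rfl⟩; exact j.2
    · intro hi; exact ⟨⟨i, hi⟩, rfl⟩
  have hmono : ∀ N' (T : Module.End A (ℕ →₀ A)), N' ≤ N → Bd (Set.Iio N') T →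
      Bd (Set.range e) T := by
    intro N' T hN' hT
    rw [hr]
    exact hT.mono (Set.Iio_subset_Iio hN')
  have ha := hmono Na _ (by omega) hNa
  have hb := hmono Nb _ (by omega) hNb
  have hc := hmono Nc _ (by omega) hNc
  have hd := hmono Nd _ (by omega) hNd
  have ha' := hmono Na' _ (by omega) hNa'
  have hb' := hmono Nb' _ (by omega) hNb'
  have hc' := hmono Nc' _ (by omega) hNc'
  have hd' := hmono Nd' _ (by omega) hNd'
  have hab : Bd (Set.range e) (ρ (a * b)) := by rw [map_mul]; exact ha.mul he hb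
  have hbc : Bd (Set.range e) (ρ (b * c)) := by rw [map_mul]; exact hb.mul he hc
  have hcd : Bd (Set.range e) (ρ (c * d)) := by rw [map_mul]; exact hc.mul he hd
  have e1 : blk e (ρ (b * c * d)⁻¹) = blk e (ρ d⁻¹) * blk e (ρ c⁻¹) * blk e (ρ b⁻¹) := by
    rw [_root_.mul_inv_rev, _root_.mul_inv_rev, map_mul, map_mul, blk_mul he (hc'.mul he hb'), blk_mul he hb',
      mul_assoc]
  have e2 : blk e (ρ (c * d)⁻¹) = blk e (ρ d⁻¹) * blk e (ρ c⁻¹) := by
    rw [_root_.mul_inv_rev, map_mul, blk_mul he hc']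
  have e3 : ∀ g : G, g = a * b * c * d → blk e (ρ g⁻¹) =
      blk e (ρ d⁻¹) * blk e (ρ c⁻¹) * blk e (ρ b⁻¹) * blk e (ρ a⁻¹) := by
    rintro g rfl
    rw [_root_.mul_inv_rev, _root_.mul_inv_rev, _root_.mul_inv_rev, map_mul, map_mul, map_mul,
      blk_mul he (hc'.mul he (hb'.mul he ha')), blk_mul he (hb'.mul he ha'), blk_mul he ha',
      mul_assoc, mul_assoc]
  have e4 : blk e (ρ (a * b * c)⁻¹) = blk e (ρ c⁻¹) * blk e (ρ b⁻¹) * blk e (ρ a⁻¹) := by
    rw [_root_.mul_inv_rev, _root_.mul_inv_rev, map_mul, map_mul, blk_mul he (hb'.mul he ha'), blk_mul he ha',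
      mul_assoc]
  have eab : blk e (ρ (a * b)) = blk e (ρ a) * blk e (ρ b) := by rw [map_mul, blk_mul he hb]
  have ebc : blk e (ρ (b * c)) = blk e (ρ b) * blk e (ρ c) := by rw [map_mul, blk_mul he hc]
  have ecd : blk e (ρ (c * d)) = blk e (ρ c) * blk e (ρ d) := by rw [map_mul, blk_mul he hd]
  have h1 : blk e (ρ a⁻¹) * blk e (ρ a) = 1 := by
    rw [← blk_mul he ha, ← map_mul, inv_mul_cancel, map_one, blk_one he]
  have h2 : blk e (ρ d) * blk e (ρ d⁻¹) = 1 := by
    rw [← blk_mul he hd', ← map_mul, mul_inv_cancel, map_one, blk_one he]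
  show psiInf 𝒟 k (ρ (b * c * d)⁻¹) (ρ b) (ρ c) (ρ d) -
    psiInf 𝒟 k (ρ (a * b * c * d)⁻¹) (ρ (a * b)) (ρ c) (ρ d) +
    psiInf 𝒟 k (ρ (a * (b * c) * d)⁻¹) (ρ a) (ρ (b * c)) (ρ d) -
    psiInf 𝒟 k (ρ (a * b * (c * d))⁻¹) (ρ a) (ρ b) (ρ (c * d)) +
    psiInf 𝒟 k (ρ (a * b * c)⁻¹) (ρ a) (ρ b) (ρ c) = 0
  rw [psiInf_eq 𝒟 k he _ hb hc hd, psiInf_eq 𝒟 k he _ hab hc hd, psiInf_eq 𝒟 k he _ ha hbc hd,
    psiInf_eq 𝒟 k he _ ha hb hcd, psiInf_eq 𝒟 k he _ ha hb hc, e1, e3 _ rfl,
    e3 (a * (b * c) * d) (by rw [mul_assoc a b c]), e3 (a * b * (c * d)) (by rw [mul_assoc (a * b) c d]),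
    e4, eab, ebc, ecd]
  exact psi_cocycle 𝒟 k _ _ _ _ _ _ _ _ h1 h2

end infinite

section rep

open Crest.AlgebraR.Steinberg

variable {A M : Type} [CommRing A] [CommRing M]

theorem ent_add (S T : Module.End A (ℕ →₀ A)) (i j : ℕ) :
    ent (S + T) i j = ent S i j + ent T i j := rfl

theorem ent_E (i j : ℕ) (a : A) (k l : ℕ) :
    ent (E i j a) k l = if i = k ∧ j = l then a else 0 := by
  simp only [ent, E_apply, Finsupp.single_apply]
  by_cases h2 : j = l
  · subst h2
    by_cases h1 : i = k <;> simp [h1]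
  · have h3 : ¬ l = j := fun h => h2 h.symm
    simp [h2, h3]

theorem exists_Bd (g : St A) : ∃ N : ℕ, Bd (Set.Iio N) (rho g) := by
  induction g using St_induction with
  | h1 => exact ⟨0, by rw [map_one]; exact Bd_one _⟩
  | hX i j h a =>
    refine ⟨i + j + 1, ?_⟩
    rw [rho_X]
    intro k l hkl
    have hne : ¬ (i = k ∧ j = l) := by
      rintro ⟨rfl, rfl⟩
      simp only [Set.mem_Iio, not_lt] at hkl
      omega
    rw [ent_add, ent_one, ent_E, if_neg hne, add_zero]
  | hmul g g' hg hg' =>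
    obtain ⟨N, hN⟩ := hg
    obtain ⟨N', hN'⟩ := hg'
    let e : Fin (N + N') → ℕ := Fin.val
    have he : Function.Injective e := Fin.val_injective
    have hr : Set.range e = Set.Iio (N + N') := by
      ext i
      constructor
      · rintro ⟨j, rfl⟩; exact j.2
      · intro hi; exact ⟨⟨i, hi⟩, rfl⟩
    refine ⟨N + N', ?_⟩
    rw [map_mul, ← hr]
    refine Bd.mul he ?_ ?_
    · rw [hr]; exact hN.mono (Set.Iio_subset_Iio (by omega))
    · rw [hr]; exact hN'.mono (Set.Iio_subset_Iio (by omega))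

variable {ι : Type} [Fintype ι] [DecidableEq ι] {e : ι → ℕ}

theorem ent_embE (M : Matrix ι ι A) (i j : ℕ) :
    ent (embE e M) i j = ∑ a, ∑ b, if e a = i ∧ e b = j then M a b else 0 := by
  simp only [ent, embE_apply, Finsupp.finsetSum_apply]
  refine Finset.sum_congr rfl fun a _ => ?_
  rw [Finsupp.single_apply]
  split_ifs with h
  · refine Finset.sum_congr rfl fun b _ => ?_
    rw [Finsupp.single_apply]
    by_cases h2 : j = e b
    · rw [if_pos h2, if_pos ⟨h, h2.symm⟩, mul_one]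
    · rw [if_neg h2, if_neg (fun h3 => h2 h3.2.symm), mul_zero]
  · rw [Finset.sum_eq_zero]
    intro b _
    rw [if_neg (fun h3 => h h3.1)]

theorem Bd_emb (M : Matrix ι ι A) : Bd (Set.range e) (emb e M) := by
  intro i j hij
  rw [emb, ent_add, ent_one, ent_embE, Finset.sum_eq_zero, add_zero]
  intro a _
  rw [Finset.sum_eq_zero]
  intro b _
  rw [if_neg]
  rintro ⟨rfl, rfl⟩
  rcases hij with h | h
  · exact h ⟨a, rfl⟩
  · exact h ⟨b, rfl⟩

theorem blk_emb (he : Function.Injective e) (M : Matrix ι ι A) : blk e (emb e M) = M := by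
  ext a b
  simp only [blk, Matrix.of_apply, emb, ent_add, ent_one, ent_embE, he.eq_iff]
  rw [Finset.sum_eq_single a, Finset.sum_eq_single b]
  · simp only [and_self, if_true, Matrix.sub_apply, Matrix.one_apply]
    split_ifs <;> ring
  · intro c _ hc
    rw [if_neg (fun h => hc h.2)]
  · simp
  · intro c _ hc
    rw [Finset.sum_eq_zero]
    intro d _
    rw [if_neg (fun h => hc h.1)]
  · simp

/-- **Dennis trace cocycle on `St(A)`**, with its values on elements represented by finite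
matrices; `P` is the inverse of `U * V * W`. -/
theorem exists_dennis_rho (𝒟 : DerData A M) (k : Fin 3 → Fin 3) :
    ∃ f : Cocycle3 (St A) M, ∀ (ι : Type) [Fintype ι] [DecidableEq ι] (e : ι → ℕ),
      Function.Injective e → ∀ (u v w : St A) (U V W P : Matrix ι ι A),
      rho u = emb e U → rho v = emb e V → rho w = emb e W → P * (U * V * W) = 1 →
      f.f u v w = Matrix.trace (P.map 𝒟.q * U.map (𝒟.D (k 0)) * V.map (𝒟.D (k 1)) *
        W.map (𝒟.D (k 2))) := by
  obtain ⟨f, hf⟩ := exists_dennis5 (M := M) 𝒟 (G := St A) rho exists_Bd k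
  refine ⟨f, ?_⟩
  intro ι _ _ e he u v w U V W P hu hv hw hP
  have hP' : rho (u * v * w)⁻¹ = emb e P := by
    have h1 : emb e P * rho (u * v * w) = 1 := by
      rw [map_mul, map_mul, hu, hv, hw, ← emb_mul e he, ← emb_mul e he, ← emb_mul e he, hP,
        emb_one]
    have h2 : rho (u * v * w) * rho (u * v * w)⁻¹ = 1 := by
      rw [← map_mul, mul_inv_cancel, map_one]
    calc rho (u * v * w)⁻¹ = (emb e P * rho (u * v * w)) * rho (u * v * w)⁻¹ := by rw [h1, one_mul]
      _ = emb e P * (rho (u * v * w) * rho (u * v * w)⁻¹) := mul_assoc _ _ _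
      _ = emb e P := by rw [h2, mul_one]
  rw [hf, hP', hu, hv, hw, psiInf_eq 𝒟 k he _ (Bd_emb U) (Bd_emb V) (Bd_emb W),
    blk_emb he, blk_emb he, blk_emb he, blk_emb he]
  rfl

end rep

end Crest.Agent.R171.D5
end

-- ▼ part R171/StElem
section

/-!
# Order five elements in the Steinberg group (result 171)
-/

set_option autoImplicit false
set_option linter.unusedSectionVars false

noncomputable section

namespace Crest.Agent.R171
open Crest.AlgebraR.Steinberg

/-! ### group theoretic lemmas on homomorphisms with central kernel -/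

section Central

variable {G : Type*} [Group G] {M : Type*} [Monoid M] (ρ : G →* M)
  (hc : ∀ g, ρ g = 1 → ∀ h, g * h = h * g)

theorem exists_central_of_map_eq {a a' : G} (h : ρ a = ρ a') : ∃ c, ρ c = 1 ∧ a = c * a' := by
  refine ⟨a * a'⁻¹, ?_, by group⟩
  have h1 : ρ a' * ρ a'⁻¹ = 1 := by rw [← map_mul, mul_inv_cancel, map_one]
  rw [map_mul, h, h1]

include hc in
/-- commutators only depend on the images -/
theorem commutator_eq_of_map_eq {a a' b b' : G} (ha : ρ a = ρ a') (hb : ρ b = ρ b') :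
    a * b * a⁻¹ * b⁻¹ = a' * b' * a'⁻¹ * b'⁻¹ := by
  obtain ⟨c, hc1, rfl⟩ := exists_central_of_map_eq ρ ha
  obtain ⟨d, hd1, rfl⟩ := exists_central_of_map_eq ρ hb
  have hc2 := hc c hc1
  have hd2 := hc d hd1
  calc c * a' * (d * b') * (c * a')⁻¹ * (d * b')⁻¹
      = c * (a' * (d * b')) * a'⁻¹ * c⁻¹ * b'⁻¹ * d⁻¹ := by group
    _ = (a' * (d * b')) * c * a'⁻¹ * c⁻¹ * b'⁻¹ * d⁻¹ := by rw [hc2]
    _ = a' * d * b' * (c * a'⁻¹) * c⁻¹ * b'⁻¹ * d⁻¹ := by group
    _ = a' * d * b' * (a'⁻¹ * c) * c⁻¹ * b'⁻¹ * d⁻¹ := by rw [hc2]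
    _ = a' * (d * (b' * a'⁻¹ * b'⁻¹)) * d⁻¹ := by group
    _ = a' * ((b' * a'⁻¹ * b'⁻¹) * d) * d⁻¹ := by rw [hd2]
    _ = a' * b' * a'⁻¹ * b'⁻¹ := by group

include hc in
/-- if `ρ(h)⁵ = 1` and `ρ(w)` conjugates `ρ(h)⁻¹` to `ρ(h)`, then `[h,w]⁵ = 1`. -/
theorem commutator_pow_five {h w : G} (h5 : ρ (h ^ 5) = 1) (hw : ρ (w * h⁻¹ * w⁻¹) = ρ h) :
    (h * w * h⁻¹ * w⁻¹) ^ 5 = 1 := by
  obtain ⟨c, hc1, hc3⟩ := exists_central_of_map_eq ρ hw
  have hc2 := hc c hc1
  have hk := hc (h ^ 5) h5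
  have e1 : h * w * h⁻¹ * w⁻¹ = c * (h * h) := by
    calc h * w * h⁻¹ * w⁻¹ = h * (w * h⁻¹ * w⁻¹) := by group
      _ = h * (c * h) := by rw [hc3]
      _ = (h * c) * h := by group
      _ = (c * h) * h := by rw [hc2 h]
      _ = c * (h * h) := by group
  have comm1 : Commute c h := hc2 h
  have comm2 : Commute c (h * h) := hc2 (h * h)
  have e2 : (w * h⁻¹ * w⁻¹) ^ 5 = w * (h ^ 5)⁻¹ * w⁻¹ := by
    rw [conj_pow, inv_pow]
  have e3 : w * (h ^ 5)⁻¹ * w⁻¹ = (h ^ 5)⁻¹ := by
    have : Commute (h ^ 5) w := hk w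
    rw [← (this.inv_left).eq, mul_inv_cancel_right]
  rw [e3, hc3, comm1.mul_pow] at e2
  rw [e1, comm2.mul_pow, (Commute.refl h).mul_pow, ← mul_assoc, e2, inv_mul_cancel]

end Central

/-! ### lifting block diagonal matrices -/

section Lift

variable {R : Type*} [CommRing R]

/-- the set of block matrices in the image of the Steinberg group -/
def InIm {ι : Type*} [Fintype ι] [DecidableEq ι] (e : ι → ℕ) (M : Matrix ι ι R) : Prop :=
  ∃ g : St R, rho g = emb e M

variable {ι : Type*} [Fintype ι] [DecidableEq ι] {e : ι → ℕ}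

theorem InIm.one : InIm e (1 : Matrix ι ι R) := ⟨1, by rw [map_one, emb_one]⟩

theorem InIm.mul (he : Function.Injective e) {M N : Matrix ι ι R} (hM : InIm e M)
    (hN : InIm e N) : InIm e (M * N) := by
  obtain ⟨g, hg⟩ := hM
  obtain ⟨g', hg'⟩ := hN
  exact ⟨g * g', by rw [map_mul, hg, hg', emb_mul e he]⟩

theorem InIm.transvection (he : Function.Injective e) {a b : ι} (hab : a ≠ b) (r : R) :
    InIm e (Matrix.transvection a b r) :=
  ⟨X (e a) (e b) (he.ne hab) r, by rw [rho_X, emb_transvection]⟩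

variable {κ : Type*} [Fintype κ] [DecidableEq κ] {e₂ : κ ⊕ κ → ℕ}

open Matrix in
theorem InIm.upper (he : Function.Injective e₂) (M : Matrix κ κ R) :
    InIm e₂ (fromBlocks 1 M 0 1) := by
  induction M using Matrix.induction_on' with
  | h_zero => rw [fromBlocks_one]; exact InIm.one
  | h_add p q hp hq =>
    have : (fromBlocks 1 (p + q) 0 1 : Matrix (κ ⊕ κ) (κ ⊕ κ) R) =
        fromBlocks 1 q 0 1 * fromBlocks 1 p 0 1 := by
      simp [fromBlocks_multiply]
    rw [this]
    exact hq.mul he hp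
  | h_std_basis i j x =>
    have : (fromBlocks 1 (Matrix.single i j x) 0 1 : Matrix (κ ⊕ κ) (κ ⊕ κ) R) =
        Matrix.transvection (Sum.inl i) (Sum.inr j) x := by
      ext (a | a) (b | b) <;>
      simp [Matrix.transvection, Matrix.single_apply, Matrix.one_apply]
    rw [this]
    exact InIm.transvection he (by simp) x

open Matrix in
theorem InIm.lower (he : Function.Injective e₂) (M : Matrix κ κ R) :
    InIm e₂ (fromBlocks 1 0 M 1) := by
  induction M using Matrix.induction_on' with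
  | h_zero => rw [fromBlocks_one]; exact InIm.one
  | h_add p q hp hq =>
    have : (fromBlocks 1 0 (p + q) 1 : Matrix (κ ⊕ κ) (κ ⊕ κ) R) =
        fromBlocks 1 0 p 1 * fromBlocks 1 0 q 1 := by
      simp [fromBlocks_multiply]
    rw [this]
    exact hp.mul he hq
  | h_std_basis i j x =>
    have : (fromBlocks 1 0 (Matrix.single i j x) 1 : Matrix (κ ⊕ κ) (κ ⊕ κ) R) =
        Matrix.transvection (Sum.inr i) (Sum.inl j) x := by
      ext (a | a) (b | b) <;>
      simp [Matrix.transvection, Matrix.single_apply, Matrix.one_apply]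
    rw [this]
    exact InIm.transvection he (by simp) x

open Matrix in
theorem InIm.antidiag (he : Function.Injective e₂) {M M' : Matrix κ κ R} (h : M * M' = 1)
    (h' : M' * M = 1) : InIm e₂ (fromBlocks 0 M (-M') 0) := by
  have : fromBlocks 0 M (-M') 0 =
      fromBlocks 1 M 0 1 * fromBlocks 1 0 (-M') 1 * fromBlocks 1 M 0 1 := by
    simp [fromBlocks_multiply, h, h']
  rw [this]
  exact ((InIm.upper he M).mul he (InIm.lower he _)).mul he (InIm.upper he M)

open Matrix in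
theorem InIm.antidiag' (he : Function.Injective e₂) {M M' : Matrix κ κ R} (h : M * M' = 1)
    (h' : M' * M = 1) : InIm e₂ (fromBlocks 0 (-M) M' 0) := by
  have := InIm.antidiag he (M := -M) (M' := -M') (by simpa using h) (by simpa using h')
  simpa using this

open Matrix in
/-- Whitehead's lemma: `diag(M, M⁻¹)` lifts to the Steinberg group. -/
theorem InIm.diag (he : Function.Injective e₂) {M M' : Matrix κ κ R} (h : M * M' = 1)
    (h' : M' * M = 1) : InIm e₂ (fromBlocks M 0 0 M') := by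
  have : fromBlocks M 0 0 M' = fromBlocks 0 M (-M') 0 * fromBlocks 0 (-1) 1 0 := by
    simp [fromBlocks_multiply]
  rw [this]
  exact (InIm.antidiag he h h').mul he (InIm.antidiag' he (by simp) (by simp))

end Lift

section Elements

open Matrix

variable {R : Type*} [CommRing R] {κ : Type*} [Fintype κ] [DecidableEq κ]

/-- the embedding along the first of two blocks -/
theorem emb_inl {κ₁ κ₂ : Type*} [Fintype κ₁] [DecidableEq κ₁] [Fintype κ₂] [DecidableEq κ₂]
    (e : κ₁ ⊕ κ₂ → ℕ) (M : Matrix κ₁ κ₁ R) :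
    emb (e ∘ Sum.inl) M = emb e (fromBlocks M 0 0 1) := by
  apply LinearMap.ext
  intro v
  simp only [emb, LinearMap.add_apply, Module.End.one_apply]
  congr 1
  rw [embE_apply, embE_apply, Fintype.sum_sum_type]
  have h2 : ∑ a : κ₂, Finsupp.single (e (Sum.inr a))
      (∑ b, (fromBlocks M 0 0 1 - 1 : Matrix (κ₁ ⊕ κ₂) (κ₁ ⊕ κ₂) R) (Sum.inr a) b * v (e b)) = 0 := by
    refine Finset.sum_eq_zero fun a _ => ?_
    rw [Fintype.sum_sum_type]
    simp [Matrix.one_apply]
  rw [h2, add_zero]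
  refine Finset.sum_congr rfl fun a _ => ?_
  rw [Fintype.sum_sum_type]
  simp [Matrix.one_apply]

/-- The two order five elements attached to conjugate matrices. -/
theorem exists_elements {A F : Type*} [CommRing A] [CommRing F] (φ : A →+* F)
    (hcA : ∀ g : St A, rho g = 1 → ∀ h, g * h = h * g)
    (hcF : ∀ g : St F, rho g = 1 → ∀ h, g * h = h * g)
    (e : (κ ⊕ κ) ⊕ (κ ⊕ κ) → ℕ) (he : Function.Injective e)
    (g0 g0' g1 g1' : Matrix κ κ A) (h0 : g0 * g0' = 1) (h0' : g0' * g0 = 1)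
    (h1 : g1 * g1' = 1) (h1' : g1' * g1 = 1) (h05 : g0 ^ 5 = 1) (h15 : g1 ^ 5 = 1)
    (θ θ' : Matrix κ κ F) (hθ : θ * θ' = 1) (hθ' : θ' * θ = 1)
    (hconj : θ * g0.map φ = g1.map φ * θ) :
    ∃ u0 u1 : St A, u0 ^ 5 = 1 ∧ u1 ^ 5 = 1 ∧
      rho u0 = emb (e ∘ Sum.inl) (fromBlocks (g0 * g0) 0 0 (g0' * g0')) ∧
      rho u1 = emb (e ∘ Sum.inl) (fromBlocks (g1 * g1) 0 0 (g1' * g1')) ∧
      ∃ t : St F, t * stMap φ u0 * t⁻¹ = stMap φ u1 := by
  have he1 : Function.Injective (e ∘ Sum.inl) := he.comp Sum.inl_injective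
  obtain ⟨k0, hk0⟩ := InIm.diag he1 h0 h0'
  obtain ⟨k1, hk1⟩ := InIm.diag he1 h1 h1'
  obtain ⟨w, hw⟩ := InIm.antidiag (R := A) he1 (M := (1 : Matrix κ κ A)) (M' := 1)
    (by simp) (by simp)
  -- the Weyl element conjugates `diag(g,g')` to `diag(g',g)`
  have key : ∀ (k : St A) (g g' : Matrix κ κ A), g * g' = 1 → g' * g = 1 → g ^ 5 = 1 →
      rho k = emb (e ∘ Sum.inl) (fromBlocks g 0 0 g') →
      rho (k ^ 5) = 1 ∧ rho (w * k⁻¹ * w⁻¹) = rho k := by
    intro k g g' hg hg' hg5 hk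
    have hg5' : g' ^ 5 = 1 := by
      have e1 : g ^ 5 * g' ^ 5 = 1 := by
        have hcomm : Commute g g' := by
          rw [Commute, SemiconjBy, hg, hg']
        rw [← hcomm.mul_pow, hg, one_pow]
      rwa [hg5, one_mul] at e1
    have hpow : ∀ n : ℕ, (emb (e ∘ Sum.inl) (fromBlocks g 0 0 g')) ^ n =
        emb (e ∘ Sum.inl) (fromBlocks (g ^ n) 0 0 (g' ^ n)) := by
      intro n
      induction n with
      | zero => simp [emb_one]
      | succ n ih =>
        rw [pow_succ, ih, ← emb_mul _ he1, pow_succ, pow_succ, fromBlocks_multiply]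
        simp
    constructor
    · rw [map_pow, hk, hpow, hg5, hg5', fromBlocks_one, emb_one]
    · -- rho (w * k⁻¹) = rho (k * w)
      have hkinv : rho k⁻¹ = emb (e ∘ Sum.inl) (fromBlocks g' 0 0 g) := by
        have e1 : rho k * emb (e ∘ Sum.inl) (fromBlocks g' 0 0 g) = 1 := by
          rw [hk, ← emb_mul _ he1, fromBlocks_multiply]
          simp [hg, hg', emb_one]
        have e2 : rho k⁻¹ * rho k = 1 := by rw [← map_mul, inv_mul_cancel, map_one]
        exact left_inv_eq_right_inv e2 e1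
      have e3 : rho (w * k⁻¹) = rho (k * w) := by
        rw [map_mul, map_mul, hkinv, hk, hw, ← emb_mul _ he1, ← emb_mul _ he1,
          fromBlocks_multiply, fromBlocks_multiply]
        simp
      rw [map_mul, e3, ← map_mul, mul_inv_cancel_right]
  obtain ⟨k05, hk0w⟩ := key k0 g0 g0' h0 h0' h05 hk0
  obtain ⟨k15, hk1w⟩ := key k1 g1 g1' h1 h1' h15 hk1
  have hrho : ∀ (k : St A) (g g' : Matrix κ κ A),
      rho k = emb (e ∘ Sum.inl) (fromBlocks g 0 0 g') → rho (w * k⁻¹ * w⁻¹) = rho k →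
      rho (k * w * k⁻¹ * w⁻¹) = emb (e ∘ Sum.inl) (fromBlocks (g * g) 0 0 (g' * g')) := by
    intro k g g' hk hkw
    have : k * w * k⁻¹ * w⁻¹ = k * (w * k⁻¹ * w⁻¹) := by group
    rw [this, map_mul, hkw, hk, ← emb_mul _ he1, fromBlocks_multiply]
    simp
  refine ⟨k0 * w * k0⁻¹ * w⁻¹, k1 * w * k1⁻¹ * w⁻¹, commutator_pow_five rho hcA k05 hk0w,
    commutator_pow_five rho hcA k15 hk1w, hrho k0 g0 g0' hk0 hk0w, hrho k1 g1 g1' hk1 hk1w, ?_⟩
  -- the conjugating element over `F`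
  obtain ⟨t, ht⟩ := InIm.diag (R := F) he (M := fromBlocks θ 0 0 θ) (M' := fromBlocks θ' 0 0 θ')
    (by rw [fromBlocks_multiply]; simp [hθ]) (by rw [fromBlocks_multiply]; simp [hθ'])
  refine ⟨t, ?_⟩
  have hconj' : θ * g0'.map φ = g1'.map φ * θ := by
    have a1 : g1'.map φ * g1.map φ = 1 := by
      rw [← Matrix.map_mul, h1', Matrix.map_one φ (map_zero φ) (map_one φ)]
    have a0 : g0.map φ * g0'.map φ = 1 := by
      rw [← Matrix.map_mul, h0, Matrix.map_one φ (map_zero φ) (map_one φ)]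
    calc θ * g0'.map φ = (g1'.map φ * g1.map φ) * θ * g0'.map φ := by rw [a1, one_mul]
      _ = g1'.map φ * (g1.map φ * θ) * g0'.map φ := by simp only [Matrix.mul_assoc]
      _ = g1'.map φ * (θ * g0.map φ) * g0'.map φ := by rw [hconj]
      _ = g1'.map φ * θ * (g0.map φ * g0'.map φ) := by simp only [Matrix.mul_assoc]
      _ = g1'.map φ * θ := by rw [a0, mul_one]
  -- images over `F`, seen in the big block
  have hF : ∀ (k : St A) (M : Matrix (κ ⊕ κ) (κ ⊕ κ) A), rho k = emb (e ∘ Sum.inl) M →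
      rho (stMap φ k) = emb e (fromBlocks (M.map φ) 0 0 1) := by
    intro k M hk
    rw [rho_stMap_of_emb φ (e ∘ Sum.inl) hk, emb_inl]
  have hconjrho : ∀ (a b : St A) (M N : Matrix (κ ⊕ κ) (κ ⊕ κ) A),
      rho a = emb (e ∘ Sum.inl) M → rho b = emb (e ∘ Sum.inl) N →
      fromBlocks θ 0 0 θ * M.map φ = N.map φ * fromBlocks θ 0 0 θ →
      rho (t * stMap φ a * t⁻¹) = rho (stMap φ b) := by
    intro a b M N ha hb hMN
    have e3 : rho (t * stMap φ a) = rho (stMap φ b * t) := by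
      rw [map_mul, map_mul, hF a M ha, hF b N hb, ht, ← emb_mul _ he, ← emb_mul _ he,
        fromBlocks_multiply, fromBlocks_multiply]
      simp [hMN]
    rw [map_mul, e3, ← map_mul, mul_inv_cancel_right]
  have c1 : rho (t * stMap φ k0 * t⁻¹) = rho (stMap φ k1) := by
    refine hconjrho k0 k1 _ _ hk0 hk1 ?_
    rw [fromBlocks_map, fromBlocks_map, fromBlocks_multiply, fromBlocks_multiply]
    simp [hconj, hconj']
  have c2 : rho (t * stMap φ w * t⁻¹) = rho (stMap φ w) := by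
    refine hconjrho w w _ _ hw hw ?_
    have hneg : (-1 : Matrix κ κ A).map φ = -1 := by
      ext i j
      simp only [Matrix.map_apply, Matrix.neg_apply, Matrix.one_apply, map_neg]
      split_ifs <;> simp
    rw [fromBlocks_map, fromBlocks_multiply, fromBlocks_multiply, hneg]
    simp [Matrix.map_one φ (map_zero φ) (map_one φ)]
  have := commutator_eq_of_map_eq rho hcF c1 c2
  rw [map_mul, map_mul, map_mul, map_inv, map_inv, map_mul, map_mul, map_mul, map_inv, map_inv,
    ← this]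
  group

end Elements

end Crest.Agent.R171
end
end

-- ▼ part R171/MatBase
section

/-!
Partial matrix computations (helper357, for helper757): the two conjugate `C₅`-lattices, and the value of
the Dennis-trace cocycle on the order-five class.
-/

set_option autoImplicit false

namespace Crest.Agent.R171.MatBase

open Matrix

section basic

variable {A : Type*} [CommRing A]

/-- companion matrix of `Φ₅` -/
def g0 (A : Type*) [CommRing A] : Matrix (Fin 4) (Fin 4) A :=
  !![0, 0, 0, -1; 1, 0, 0, -1; 0, 1, 0, -1; 0, 0, 1, -1]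

/-- the second lattice -/
def g1 (x z t : A) : Matrix (Fin 4) (Fin 4) A :=
  !![0, -1, 0, t * x ^ 4; 1, z - 1, 0, -(z - 1) * t * x ^ 4; 0, x, 0, -(1 + t * x ^ 5);
     0, 0, 1, -z]

/-- the change of basis -/
def bm (x z : A) : Matrix (Fin 4) (Fin 4) A :=
  !![x, 0, 1, 0; 0, x, -(z - 1), 1; 0, 0, 1, -(z - 1); 0, 0, 0, 1]

theorem g0_pow_five : g0 A ^ 5 = 1 := by
  have h2 : g0 A * g0 A = !![0, 0, -1, 1; 0, 0, -1, 0; 1, 0, -1, 0; 0, 1, -1, 0] := by
    ext i j
    fin_cases i <;> fin_cases j <;> simp [g0, Matrix.mul_apply, Fin.sum_univ_four]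
  have h4 : (g0 A * g0 A) * (g0 A * g0 A) = !![-1, 1, 0, 0; -1, 0, 1, 0; -1, 0, 0, 1; -1, 0, 0, 0] := by
    rw [h2]
    ext i j
    fin_cases i <;> fin_cases j <;> simp [Matrix.mul_apply, Fin.sum_univ_four]
  have h5 : g0 A ^ 5 = ((g0 A * g0 A) * (g0 A * g0 A)) * g0 A := by
    simp only [pow_succ, pow_zero, one_mul, mul_assoc]
  rw [h5, h4]
  ext i j
  fin_cases i <;> fin_cases j <;> simp [g0, Matrix.mul_apply, Fin.sum_univ_four]

theorem g0_mul_bm (x z t : A) (hE : z ^ 2 - z - 1 = t * x ^ 5) :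
    g0 A * bm x z = bm x z * g1 x z t := by
  ext i j
  fin_cases i <;> fin_cases j <;>
    simp [g0, bm, g1, Matrix.mul_apply, Fin.sum_univ_four] <;>
    (try ring_nf) <;> (try linear_combination -hE)

theorem det_bm (x z : A) : (bm x z).det = x ^ 2 := by
  simp [bm, Matrix.det_succ_row_zero, Fin.sum_univ_succ, Fin.succAbove]
  ring

theorem g1_pow_five [IsDomain A] (x z t : A) (hx : x ≠ 0) (hE : z ^ 2 - z - 1 = t * x ^ 5) :
    g1 x z t ^ 5 = 1 := by
  have h : ∀ n : ℕ, g0 A ^ n * bm x z = bm x z * g1 x z t ^ n := by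
    intro n
    induction n with
    | zero => simp
    | succ n ih =>
      rw [pow_succ, mul_assoc, g0_mul_bm x z t hE, ← mul_assoc, ih, mul_assoc, ← pow_succ]
  have h5 := h 5
  rw [g0_pow_five, one_mul] at h5
  have h6 : (x ^ 2) • (g1 x z t ^ 5 - 1) = 0 := by
    have h7 : adjugate (bm x z) * (bm x z * (g1 x z t ^ 5 - 1)) = 0 := by
      rw [mul_sub, ← h5, mul_one, sub_self, mul_zero]
    rw [← mul_assoc, adjugate_mul, det_bm, smul_mul_assoc, one_mul] at h7
    exact h7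
  rcases smul_eq_zero.mp h6 with h8 | h8
  · exact absurd (pow_eq_zero_iff (two_ne_zero)|>.mp h8) hx
  · exact sub_eq_zero.mp h8

end basic

/-! ### derivations on matrices -/

section der

variable {A Q : Type*} [CommRing A] [CommRing Q] (𝒟 : DerData A Q)
variable {n : Type*} [Fintype n] [DecidableEq n]

theorem D_zero (k : Fin 3) : 𝒟.D k 0 = 0 := by
  have h := 𝒟.add k 0 0
  simp only [add_zero] at h
  exact left_eq_add.mp h

theorem D_one (k : Fin 3) : 𝒟.D k 1 = 0 := by
  have h := 𝒟.leib k 1 1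
  simp only [mul_one, map_one, one_mul] at h
  exact left_eq_add.mp h

theorem D_neg (k : Fin 3) (a : A) : 𝒟.D k (-a) = -𝒟.D k a := by
  have h := 𝒟.add k a (-a)
  rw [add_neg_cancel, D_zero] at h
  exact eq_neg_of_add_eq_zero_right h.symm

theorem D_sub (k : Fin 3) (a b : A) : 𝒟.D k (a - b) = 𝒟.D k a - 𝒟.D k b := by
  rw [sub_eq_add_neg, 𝒟.add, D_neg, sub_eq_add_neg]

theorem D_pow (k : Fin 3) (a : A) (m : ℕ) :
    𝒟.D k (a ^ m) = m * 𝒟.q a ^ (m - 1) * 𝒟.D k a := by
  induction m with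
  | zero => simp [D_one]
  | succ m ih =>
    rw [pow_succ, 𝒟.leib, ih]
    rcases m with _ | m
    · simp
    · simp only [Nat.add_sub_cancel, map_pow]
      push_cast
      ring

theorem D_sum (k : Fin 3) {ι : Type*} (s : Finset ι) (f : ι → A) :
    𝒟.D k (∑ i ∈ s, f i) = ∑ i ∈ s, 𝒟.D k (f i) := by
  classical
  induction s using Finset.induction_on with
  | empty => simp [D_zero]
  | insert a s ha ih => rw [Finset.sum_insert ha, 𝒟.add, ih, Finset.sum_insert ha]

theorem mapD_mul (k : Fin 3) (M N : Matrix n n A) :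
    (M * N).map (𝒟.D k) = M.map 𝒟.q * N.map (𝒟.D k) + M.map (𝒟.D k) * N.map 𝒟.q := by
  ext i j
  simp only [Matrix.map_apply, Matrix.mul_apply, Matrix.add_apply, D_sum, 𝒟.leib,
    Finset.sum_add_distrib]

theorem mapD_one (k : Fin 3) : (1 : Matrix n n A).map (𝒟.D k) = 0 := by
  ext i j
  by_cases h : i = j
  · subst h; simp [D_one]
  · simp [h, D_zero]

theorem mapq_mul (M N : Matrix n n A) : (M * N).map 𝒟.q = M.map 𝒟.q * N.map 𝒟.q :=
  Matrix.map_mul


end der

end Crest.Agent.R171.MatBase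
end

-- ▼ part R171/TraceSum
section

/-!
The value of the Dennis trace cocycle on the order five class (result 171).
-/

set_option autoImplicit false
set_option linter.unusedSectionVars false
set_option linter.unusedSimpArgs false

open Matrix

namespace Crest.Agent.R171.TS

/-- 4×4 matrices over `ZMod 5` -/
abbrev M4 := Matrix (Fin 4) (Fin 4) (ZMod 5)

section Cg

variable {Q : Type*} [CommRing Q] (c : ZMod 5 →+* Q) (X4 : Q)

/-- congruence of a `Q`-matrix with a `ZMod 5`-matrix modulo the annihilator of `X4` -/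
def Cg (M : Matrix (Fin 4) (Fin 4) Q) (m : M4) : Prop := X4 • M = X4 • m.map c

variable {c X4} {M N : Matrix (Fin 4) (Fin 4) Q} {m n : M4}

theorem Cg.mul (hM : Cg c X4 M m) (hN : Cg c X4 N n) : Cg c X4 (M * N) (m * n) := by
  unfold Cg at *
  calc X4 • (M * N) = (X4 • M) * N := (smul_mul_assoc _ _ _).symm
    _ = (X4 • m.map c) * N := by rw [hM]
    _ = m.map c * (X4 • N) := by rw [smul_mul_assoc, mul_smul_comm]
    _ = m.map c * (X4 • n.map c) := by rw [hN]
    _ = X4 • (m * n).map c := by rw [mul_smul_comm, Matrix.map_mul]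

theorem Cg.add (hM : Cg c X4 M m) (hN : Cg c X4 N n) : Cg c X4 (M + N) (m + n) := by
  unfold Cg at *
  rw [smul_add, hM, hN, ← smul_add]
  congr 1
  ext i j
  simp

theorem Cg.zero : Cg c X4 0 0 := by
  unfold Cg
  congr 1
  ext i j
  simp

theorem Cg.one : Cg c X4 1 1 := by
  unfold Cg
  rw [Matrix.map_one c (map_zero c) (map_one c)]

theorem Cg.pow (hM : Cg c X4 M m) (k : ℕ) : Cg c X4 (M ^ k) (m ^ k) := by
  induction k with
  | zero => rw [pow_zero, pow_zero]; exact Cg.one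
  | succ k ih => rw [pow_succ, pow_succ]; exact ih.mul hM

theorem Cg.trace_mul (hM : Cg c X4 M m) (K : M4) :
    trace (M * (X4 • K.map c)) = X4 * c (trace (m * K)) := by
  have h1 : M * (X4 • K.map c) = X4 • (m * K).map c := by
    calc M * (X4 • K.map c) = (X4 • M) * K.map c := by rw [mul_smul_comm, smul_mul_assoc]
      _ = (X4 • m.map c) * K.map c := by rw [hM]
      _ = X4 • (m * K).map c := by rw [smul_mul_assoc, Matrix.map_mul]
  rw [h1, trace_smul, smul_eq_mul]
  congr 1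
  exact (AddMonoidHom.map_trace (c : ZMod 5 →+ Q) (m * K)).symm

end Cg

section Good

variable {A Q : Type*} [CommRing A] [CommRing Q] (𝒟 : DerData A Q)
  (c : ZMod 5 →+* Q) (X4 : Q)

/-- a matrix over `A` with its reductions -/
structure Good (V : Matrix (Fin 4) (Fin 4) A) (v a b n : M4) : Prop where
  q : Cg c X4 (V.map 𝒟.q) v
  d0 : Cg c X4 (V.map (𝒟.D 0)) a
  d1 : Cg c X4 (V.map (𝒟.D 1)) b
  d2 : V.map (𝒟.D 2) = X4 • n.map c

variable {𝒟 c X4} {V V' : Matrix (Fin 4) (Fin 4) A} {v a b n v' a' b' n' : M4}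

theorem Good.mul (h : Good 𝒟 c X4 V v a b n) (h' : Good 𝒟 c X4 V' v' a' b' n') :
    Good 𝒟 c X4 (V * V') (v * v') (v * a' + a * v') (v * b' + b * v') (v * n' + n * v') where
  q := by rw [MatBase.mapq_mul]; exact h.q.mul h'.q
  d0 := by
    rw [MatBase.mapD_mul]
    exact (h.q.mul h'.d0).add (h.d0.mul h'.q)
  d1 := by
    rw [MatBase.mapD_mul]
    exact (h.q.mul h'.d1).add (h.d1.mul h'.q)
  d2 := by
    rw [MatBase.mapD_mul, h.d2, h'.d2]
    have e1 : V.map 𝒟.q * X4 • n'.map c = X4 • (v * n').map c := by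
      rw [mul_smul_comm, ← smul_mul_assoc, h.q, smul_mul_assoc, Matrix.map_mul]
    have e2 : X4 • n.map c * V'.map 𝒟.q = X4 • (n * v').map c := by
      rw [smul_mul_assoc, ← mul_smul_comm, h'.q, mul_smul_comm, Matrix.map_mul]
    rw [e1, e2, ← smul_add, Matrix.map_add c (map_add c)]

/-- the reduction of the `D 1`-derivative of powers -/
def beta (v b : M4) : ℕ → M4
  | 0 => 0
  | k + 1 => v ^ k * b + beta v b k * v

theorem Good.d1_pow (h : Good 𝒟 c X4 V v a b n) (k : ℕ) :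
    Cg c X4 ((V ^ k).map (𝒟.D 1)) (beta v b k) := by
  induction k with
  | zero =>
    rw [pow_zero, MatBase.mapD_one]
    exact Cg.zero
  | succ k ih =>
    rw [pow_succ, MatBase.mapD_mul]
    refine Cg.add (Cg.mul ?_ h.d1) (ih.mul h.q)
    have : (V ^ k).map 𝒟.q = (V.map 𝒟.q) ^ k := by
      have := map_pow (RingHom.mapMatrix (m := Fin 4) 𝒟.q) V k
      simpa only [RingHom.mapMatrix_apply] using this
    rw [this]
    exact h.q.pow k

theorem Good.sum (h : Good 𝒟 c X4 V v a b n) :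
    ∑ i ∈ Finset.range 5, trace ((V ^ (8 - i)).map 𝒟.q * V.map (𝒟.D 0) *
      (V ^ i).map (𝒟.D 1) * V.map (𝒟.D 2)) =
    X4 * c (∑ i ∈ Finset.range 5, trace (v ^ (8 - i) * a * beta v b i * n)) := by
  rw [map_sum, Finset.mul_sum]
  refine Finset.sum_congr rfl fun i _ => ?_
  rw [h.d2]
  apply Cg.trace_mul
  refine Cg.mul (Cg.mul ?_ h.d0) (h.d1_pow i)
  have : (V ^ (8 - i)).map 𝒟.q = (V.map 𝒟.q) ^ (8 - i) := by
    have := map_pow (RingHom.mapMatrix (m := Fin 4) 𝒟.q) V (8 - i)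
    simpa only [RingHom.mapMatrix_apply] using this
  rw [this]
  exact h.q.pow _

end Good

/-! ### numerical evaluation over `ZMod 5` -/

section Num

def v2 : M4 := !![4, 3, 0, 0; 2, 3, 0, 0; 0, 0, 4, 3; 0, 0, 2, 3]
def a2 : M4 := !![0, 0, 0, 0; 0, 0, 0, 0; 1, 2, 0, 0; 0, 1, 0, 0]
def b2 : M4 := !![0, 4, 0, 0; 1, 4, 0, 0; 0, 0, 0, 1; 0, 0, 4, 1]
def n2 : M4 := !![0, 0, 1, 4; 0, 0, 3, 3; 0, 0, 0, 0; 0, 0, 0, 0]

theorem v2_pow2 : v2 ^ 2 = !![2, 1, 0, 0; 4, 0, 0, 0; 0, 0, 2, 1; 0, 0, 4, 0] := by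
  rw [pow_two]; decide
theorem v2_pow3 : v2 ^ 3 = !![0, 4, 0, 0; 1, 2, 0, 0; 0, 0, 0, 4; 0, 0, 1, 2] := by
  rw [pow_succ, v2_pow2]; decide
theorem v2_pow4 : v2 ^ 4 = !![3, 2, 0, 0; 3, 4, 0, 0; 0, 0, 3, 2; 0, 0, 3, 4] := by
  rw [pow_succ, v2_pow3]; decide
theorem v2_pow5 : v2 ^ 5 = 1 := by
  rw [pow_succ, v2_pow4]; decide

theorem beta2_1 : beta v2 b2 1 = b2 := by
  simp [beta]
theorem beta2_2 : beta v2 b2 2 = !![1, 0, 0, 0; 0, 0, 0, 0; 0, 0, 4, 0; 0, 0, 0, 0] := by
  rw [beta, beta2_1, pow_one]; decide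
theorem beta2_3 : beta v2 b2 3 = !![0, 0, 0, 0; 0, 1, 0, 0; 0, 0, 0, 0; 0, 0, 0, 4] := by
  rw [beta, beta2_2, v2_pow2]; decide
theorem beta2_4 : beta v2 b2 4 = !![4, 1, 0, 0; 4, 0, 0, 0; 0, 0, 1, 4; 0, 0, 1, 0] := by
  rw [beta, beta2_3, v2_pow3]; decide

theorem num2 : ∑ i ∈ Finset.range 5, trace (v2 ^ (8 - i) * a2 * beta v2 b2 i * n2) = 1 := by
  have h8 : v2 ^ 8 = v2 ^ 3 := by rw [show 8 = 5 + 3 from rfl, pow_add, v2_pow5, one_mul]
  have h7 : v2 ^ 7 = v2 ^ 2 := by rw [show 7 = 5 + 2 from rfl, pow_add, v2_pow5, one_mul]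
  have h6 : v2 ^ 6 = v2 := by rw [show 6 = 5 + 1 from rfl, pow_add, v2_pow5, one_mul, pow_one]
  simp only [Finset.sum_range_succ, Finset.sum_range_zero, Nat.sub_zero, zero_add]
  have e0 : beta v2 b2 0 = 0 := rfl
  rw [h8, e0, show 8 - 1 = 7 from rfl, show 8 - 2 = 6 from rfl, show 8 - 3 = 5 from rfl, show 8 - 4 = 4 from rfl, h7, h6, v2_pow5, v2_pow2, v2_pow3, v2_pow4, beta2_1, beta2_2, beta2_3, beta2_4]
  have t1 : trace (!![2, 1, 0, 0; 4, 0, 0, 0; 0, 0, 2, 1; 0, 0, 4, 0] * a2 * b2 * n2) = 0 := by decide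
  have t2 : trace (v2 * a2 * !![1, 0, 0, 0; 0, 0, 0, 0; 0, 0, 4, 0; 0, 0, 0, 0] * n2) = 2 := by decide
  have t3 : trace (1 * a2 * !![0, 0, 0, 0; 0, 1, 0, 0; 0, 0, 0, 0; 0, 0, 0, 4] * n2) = 4 := by decide
  have t4 : trace (!![3, 2, 0, 0; 3, 4, 0, 0; 0, 0, 3, 2; 0, 0, 3, 4] * a2 * !![4, 1, 0, 0; 4, 0, 0, 0; 0, 0, 1, 4; 0, 0, 1, 0] * n2) = 0 := by decide
  rw [t1, t2, t3, t4, Matrix.mul_zero, Matrix.zero_mul, Matrix.trace_zero]
  decide

def v3 : M4 := !![3, 2, 0, 0; 3, 4, 0, 0; 0, 0, 3, 2; 0, 0, 3, 4]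
def a3 : M4 := !![0, 0, 0, 0; 0, 0, 0, 0; 2, 2, 0, 0; 1, 4, 0, 0]
def b3 : M4 := !![4, 1, 0, 0; 4, 0, 0, 0; 0, 0, 1, 4; 0, 0, 1, 0]
def n3 : M4 := !![0, 0, 4, 0; 0, 0, 3, 4; 0, 0, 0, 0; 0, 0, 0, 0]

theorem v3_pow2 : v3 ^ 2 = !![0, 4, 0, 0; 1, 2, 0, 0; 0, 0, 0, 4; 0, 0, 1, 2] := by
  rw [pow_two]; decide
theorem v3_pow3 : v3 ^ 3 = !![2, 1, 0, 0; 4, 0, 0, 0; 0, 0, 2, 1; 0, 0, 4, 0] := by
  rw [pow_succ, v3_pow2]; decide
theorem v3_pow4 : v3 ^ 4 = !![4, 3, 0, 0; 2, 3, 0, 0; 0, 0, 4, 3; 0, 0, 2, 3] := by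
  rw [pow_succ, v3_pow3]; decide
theorem v3_pow5 : v3 ^ 5 = 1 := by
  rw [pow_succ, v3_pow4]; decide

theorem beta3_1 : beta v3 b3 1 = b3 := by
  simp [beta]
theorem beta3_2 : beta v3 b3 2 = !![0, 0, 0, 0; 0, 1, 0, 0; 0, 0, 0, 0; 0, 0, 0, 4] := by
  rw [beta, beta3_1, pow_one]; decide
theorem beta3_3 : beta v3 b3 3 = !![1, 0, 0, 0; 0, 0, 0, 0; 0, 0, 4, 0; 0, 0, 0, 0] := by
  rw [beta, beta3_2, v3_pow2]; decide
theorem beta3_4 : beta v3 b3 4 = !![0, 4, 0, 0; 1, 4, 0, 0; 0, 0, 0, 1; 0, 0, 4, 1] := by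
  rw [beta, beta3_3, v3_pow3]; decide

theorem num3 : ∑ i ∈ Finset.range 5, trace (v3 ^ (8 - i) * a3 * beta v3 b3 i * n3) = 1 := by
  have h8 : v3 ^ 8 = v3 ^ 3 := by rw [show 8 = 5 + 3 from rfl, pow_add, v3_pow5, one_mul]
  have h7 : v3 ^ 7 = v3 ^ 2 := by rw [show 7 = 5 + 2 from rfl, pow_add, v3_pow5, one_mul]
  have h6 : v3 ^ 6 = v3 := by rw [show 6 = 5 + 1 from rfl, pow_add, v3_pow5, one_mul, pow_one]
  simp only [Finset.sum_range_succ, Finset.sum_range_zero, Nat.sub_zero, zero_add]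
  have e0 : beta v3 b3 0 = 0 := rfl
  rw [h8, e0, show 8 - 1 = 7 from rfl, show 8 - 2 = 6 from rfl, show 8 - 3 = 5 from rfl, show 8 - 4 = 4 from rfl, h7, h6, v3_pow5, v3_pow2, v3_pow3, v3_pow4, beta3_1, beta3_2, beta3_3, beta3_4]
  have t1 : trace (!![0, 4, 0, 0; 1, 2, 0, 0; 0, 0, 0, 4; 0, 0, 1, 2] * a3 * b3 * n3) = 3 := by decide
  have t2 : trace (v3 * a3 * !![0, 0, 0, 0; 0, 1, 0, 0; 0, 0, 0, 0; 0, 0, 0, 4] * n3) = 0 := by decide
  have t3 : trace (1 * a3 * !![1, 0, 0, 0; 0, 0, 0, 0; 0, 0, 4, 0; 0, 0, 0, 0] * n3) = 3 := by decide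
  have t4 : trace (!![4, 3, 0, 0; 2, 3, 0, 0; 0, 0, 4, 3; 0, 0, 2, 3] * a3 * !![0, 4, 0, 0; 1, 4, 0, 0; 0, 0, 0, 1; 0, 0, 4, 1] * n3) = 0 := by decide
  rw [t1, t2, t3, t4, Matrix.mul_zero, Matrix.zero_mul, Matrix.trace_zero]
  decide


end Num

section Final

variable {A Q : Type*} [CommRing A] [CommRing Q] (𝒟 : DerData A Q)
    (x z t : A) (h5 : (5 : Q) = 0) (hz : 𝒟.q z = 3) (hx : 𝒟.q x ^ 5 = 0)
    (d0x : 𝒟.D 0 x = 1) (d0z : 𝒟.D 0 z = 0) (d0t : 𝒟.D 0 t = 0)
    (d1x : 𝒟.D 1 x = 0) (d1z : 𝒟.D 1 z = 1) (d1t : 𝒟.D 1 t = 0)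
    (d2x : 𝒟.D 2 x = 0) (d2z : 𝒟.D 2 z = 0) (d2t : 𝒟.D 2 t = 1)
    (c : ZMod 5 →+* Q)

include h5 hz hx d0x d0z d0t d1x d1z d1t d2x d2z d2t in
theorem good_g1 : Good 𝒟 c (𝒟.q x ^ 4) (MatBase.g1 x z t)
    !![0, -1, 0, 0; 1, 2, 0, 0; 0, 0, 0, -1; 0, 0, 1, -3]
    !![0, 0, 0, 0; 0, 0, 0, 0; 0, 1, 0, 0; 0, 0, 0, 0]
    !![0, 0, 0, 0; 0, 1, 0, 0; 0, 0, 0, 0; 0, 0, 0, -1]
    !![0, 0, 0, 1; 0, 0, 0, -2; 0, 0, 0, 0; 0, 0, 0, 0] where
  q := by
    have hc2 : c 2 = 2 := map_ofNat c 2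
    have hc3 : c 3 = 3 := map_ofNat c 3
    unfold Cg
    ext i j
    fin_cases i <;> fin_cases j <;> simp [MatBase.g1, hz, hc2, hc3]
    · linear_combination (𝒟.q t * 𝒟.q x ^ 3) * hx
    · ring
    · linear_combination ((1 - 3) * 𝒟.q t * 𝒟.q x ^ 3) * hx
    · linear_combination hx
    · linear_combination (-(𝒟.q t * 𝒟.q x ^ 4)) * hx
  d0 := by
    unfold Cg
    ext i j
    fin_cases i <;> fin_cases j <;>
      simp [MatBase.g1, hz, MatBase.D_neg, MatBase.D_sub, MatBase.D_zero, MatBase.D_one,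
        MatBase.D_pow, 𝒟.add, 𝒟.leib, d0x, d0z, d0t]
    · linear_combination (4 * 𝒟.q t * 𝒟.q x ^ 2) * hx
    · linear_combination ((1 - 3) * 𝒟.q t * 4 * 𝒟.q x ^ 2) * hx
    · linear_combination (5 * 𝒟.q t * 𝒟.q x ^ 3) * hx
  d1 := by
    unfold Cg
    ext i j
    fin_cases i <;> fin_cases j <;>
      simp [MatBase.g1, hz, MatBase.D_neg, MatBase.D_sub, MatBase.D_zero, MatBase.D_one,
        MatBase.D_pow, 𝒟.add, 𝒟.leib, d1x, d1z, d1t]
    · linear_combination (𝒟.q t * 𝒟.q x ^ 3) * hx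
  d2 := by
    have hc2 : c 2 = 2 := map_ofNat c 2
    ext i j
    fin_cases i <;> fin_cases j <;>
      simp [MatBase.g1, hz, MatBase.D_neg, MatBase.D_sub, MatBase.D_zero, MatBase.D_one,
        MatBase.D_pow, 𝒟.add, 𝒟.leib, d2x, d2z, d2t, hc2]
    · ring
    · exact hx

include h5 hz hx d0x d0z d0t d1x d1z d1t d2x d2z d2t in
theorem good_g1_sq : Good 𝒟 c (𝒟.q x ^ 4) (MatBase.g1 x z t * MatBase.g1 x z t) v2 a2 b2 n2 := by
  have h := good_g1 𝒟 x z t h5 hz hx d0x d0z d0t d1x d1z d1t d2x d2z d2t c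
  have h2 := h.mul h
  convert h2 using 1 <;> decide

include h5 hz hx d0x d0z d0t d1x d1z d1t d2x d2z d2t in
theorem good_g1_cube : Good 𝒟 c (𝒟.q x ^ 4)
    (MatBase.g1 x z t * MatBase.g1 x z t * MatBase.g1 x z t) v3 a3 b3 n3 := by
  have h := good_g1 𝒟 x z t h5 hz hx d0x d0z d0t d1x d1z d1t d2x d2z d2t c
  have h2 := (good_g1_sq 𝒟 x z t h5 hz hx d0x d0z d0t d1x d1z d1t d2x d2z d2t c).mul h
  convert h2 using 1 <;> decide

end Final

theorem fromBlocks_pow {A : Type*} [CommRing A] {n m : Type*} [Fintype n] [Fintype m]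
    [DecidableEq n] [DecidableEq m] (M : Matrix n n A) (N : Matrix m m A) (k : ℕ) :
    (fromBlocks M 0 0 N) ^ k = fromBlocks (M ^ k) 0 0 (N ^ k) := by
  induction k with
  | zero => simp
  | succ k ih =>
    rw [pow_succ, ih, pow_succ, pow_succ, fromBlocks_multiply]
    simp

end Crest.Agent.R171.TS

namespace Crest.Agent.R171

open TS in
/-- The value of the Dennis trace cocycle on the order five class. -/
theorem trace_sum {A Q : Type*} [CommRing A] [IsDomain A] [CommRing Q] (𝒟 : DerData A Q)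
    (x z t : A) (hx0 : x ≠ 0)
    (hE : z ^ 2 - z - 1 = t * x ^ 5) (h5 : (5 : Q) = 0) (hz : 𝒟.q z = 3) (hx : 𝒟.q x ^ 5 = 0)
    (hx4 : 𝒟.q x ^ 4 ≠ 0)
    (d0x : 𝒟.D 0 x = 1) (d0z : 𝒟.D 0 z = 0) (d0t : 𝒟.D 0 t = 0)
    (d1x : 𝒟.D 1 x = 0) (d1z : 𝒟.D 1 z = 1) (d1t : 𝒟.D 1 t = 0)
    (d2x : 𝒟.D 2 x = 0) (d2z : 𝒟.D 2 z = 0) (d2t : 𝒟.D 2 t = 1)
    (U : Matrix (Fin 4 ⊕ Fin 4) (Fin 4 ⊕ Fin 4) A)
    (hU : U = fromBlocks (MatBase.g1 x z t * MatBase.g1 x z t) 0 0
      (MatBase.g1 x z t ^ 4 * MatBase.g1 x z t ^ 4)) :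
    ∑ i ∈ Finset.range 5, trace ((U ^ (8 - i)).map 𝒟.q * U.map (𝒟.D 0) * (U ^ i).map (𝒟.D 1) *
      U.map (𝒟.D 2)) = 2 * 𝒟.q x ^ 4 := by
  have hnt : Nontrivial Q := ⟨_, _, hx4⟩
  have hchar : CharP Q 5 := by
    rw [CharP.charP_iff_prime_eq_zero (by norm_num : Nat.Prime 5)]
    exact_mod_cast h5
  let c : ZMod 5 →+* Q := ZMod.castHom (dvd_refl 5) Q
  set g := MatBase.g1 x z t with hg
  have hg5 : g ^ 5 = 1 := MatBase.g1_pow_five x z t hx0 hE
  have hg3 : g ^ 4 * g ^ 4 = g * g * g := by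
    have : g ^ 4 * g ^ 4 = g ^ 5 * (g * g * g) := by
      simp only [pow_succ, pow_zero, one_mul, mul_assoc]
    rw [this, hg5, one_mul]
  rw [hg3] at hU
  have G2 := good_g1_sq 𝒟 x z t h5 hz hx d0x d0z d0t d1x d1z d1t d2x d2z d2t c
  have G3 := good_g1_cube 𝒟 x z t h5 hz hx d0x d0z d0t d1x d1z d1t d2x d2z d2t c
  have s2 := G2.sum
  have s3 := G3.sum
  rw [num2, map_one, mul_one] at s2
  rw [num3, map_one, mul_one] at s3
  rw [← hg] at s2 s3
  have hz' : ∀ k, (0 : Matrix (Fin 4) (Fin 4) A).map (𝒟.D k) = 0 := by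
    intro k
    ext i j
    simp [MatBase.D_zero]
  have hzq : (0 : Matrix (Fin 4) (Fin 4) A).map 𝒟.q = 0 := by
    ext i j
    simp
  have key : ∀ i ∈ Finset.range 5, trace ((U ^ (8 - i)).map 𝒟.q * U.map (𝒟.D 0) *
      (U ^ i).map (𝒟.D 1) * U.map (𝒟.D 2)) =
      trace (((g * g) ^ (8 - i)).map 𝒟.q * (g * g).map (𝒟.D 0) *
        ((g * g) ^ i).map (𝒟.D 1) * (g * g).map (𝒟.D 2)) +
      trace (((g * g * g) ^ (8 - i)).map 𝒟.q * (g * g * g).map (𝒟.D 0) *
        ((g * g * g) ^ i).map (𝒟.D 1) * (g * g * g).map (𝒟.D 2)) := by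
    intro i _
    rw [hU, fromBlocks_pow, fromBlocks_pow, fromBlocks_map, fromBlocks_map, fromBlocks_map,
      fromBlocks_map, hz', hz', hz', hzq, fromBlocks_multiply, fromBlocks_multiply,
      fromBlocks_multiply]
    simp only [Matrix.mul_zero, Matrix.zero_mul, add_zero, zero_add, Matrix.trace, Matrix.diag_apply,
      Fintype.sum_sum_type, fromBlocks_apply₁₁, fromBlocks_apply₂₂]
  rw [Finset.sum_congr rfl key, Finset.sum_add_distrib, s2, s3]
  ring

end Crest.Agent.R171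
private theorem rz_6a62ed1547 : type_of% @_root_.Crest.Agent.R171.TS.beta.eq_def := @_root_.Crest.Agent.R171.TS.beta.eq_def -- L101
private theorem rz_578b8e5af0 : type_of% @_root_.Crest.Agent.R171.TS.beta.eq_1 := @_root_.Crest.Agent.R171.TS.beta.eq_1 -- L101
end

-- ▼ part R171/Final5

set_option autoImplicit false

open Crest.AlgebraR.Steinberg Matrix

namespace Crest.Agent.R171

/-- derivations kill integer matrices -/
theorem map_D_intCast {A Q : Type*} [CommRing A] [CommRing Q] (𝒟 : DerData A Q) (k : Fin 3)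
    {ι : Type*} [Fintype ι] [DecidableEq ι] (U : Matrix ι ι ℤ) :
    (U.map (Int.castRingHom A)).map (𝒟.D k) = 0 := by
  have hint : ∀ n : ℤ, 𝒟.D k (n : A) = 0 := by
    intro n
    have h := (AddMonoidHom.mk' (𝒟.D k) (𝒟.add k)).map_zsmul n (1 : A)
    have h1 : 𝒟.D k (1 : A) = 0 := MatBase.D_one 𝒟 k
    simp only [AddMonoidHom.mk'_apply, h1, smul_zero, zsmul_eq_mul, mul_one] at h
    exact h
  ext i j
  simp [hint]

/-- The integer version of `g0 A`. -/
theorem g0_map_int (A : Type*) [CommRing A] :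
    (MatBase.g0 ℤ).map (Int.castRingHom A) = MatBase.g0 A := by
  ext i j
  fin_cases i <;> fin_cases j <;> simp [MatBase.g0]

theorem main {A : Type} [CommRing A] [IsDomain A] {Q : Type} [CommRing Q] (𝒟 : DerData A Q)
    (x z t : A) (hx0 : x ≠ 0)
    (hE : z ^ 2 - z - 1 = t * x ^ 5) (h5 : (5 : Q) = 0) (hz : 𝒟.q z = 3) (hx : 𝒟.q x ^ 5 = 0)
    (hx4 : 𝒟.q x ^ 4 ≠ 0)
    (d0x : 𝒟.D 0 x = 1) (d0z : 𝒟.D 0 z = 0) (d0t : 𝒟.D 0 t = 0)
    (d1x : 𝒟.D 1 x = 0) (d1z : 𝒟.D 1 z = 1) (d1t : 𝒟.D 1 t = 0)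
    (d2x : 𝒟.D 2 x = 0) (d2z : 𝒟.D 2 z = 0) (d2t : 𝒟.D 2 t = 1) :
    ¬ Function.Injective (H3map (algebraMap A (FractionRing A))).hom := by
  set F := FractionRing A
  set φ : A →+* F := algebraMap A F
  set g0 := MatBase.g0 A with hg0
  set g1 := MatBase.g1 x z t with hg1
  have h05 : g0 ^ 5 = 1 := MatBase.g0_pow_five
  have h15 : g1 ^ 5 = 1 := MatBase.g1_pow_five x z t hx0 hE
  let e : (Fin 4 ⊕ Fin 4) ⊕ (Fin 4 ⊕ Fin 4) → ℕ :=
    fun a => ((Fintype.equivFin ((Fin 4 ⊕ Fin 4) ⊕ (Fin 4 ⊕ Fin 4)) a : Fin _) : ℕ)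
  have he : Function.Injective e := Fin.val_injective.comp (Equiv.injective _)
  -- the change of basis over `F`
  set B : Matrix (Fin 4) (Fin 4) F := (MatBase.bm x z).map φ with hB
  have hdet : IsUnit B.det := by
    have h1 : B.det = φ (x ^ 2) := by
      rw [← MatBase.det_bm x z, hB, RingHom.map_det, RingHom.mapMatrix_apply]
    rw [h1, isUnit_iff_ne_zero, Ne, map_eq_zero_iff φ (IsFractionRing.injective A F)]
    exact pow_ne_zero 2 hx0
  have hconj : B⁻¹ * g0.map φ = g1.map φ * B⁻¹ := by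
    have h1 : g0.map φ * B = B * g1.map φ := by
      rw [hB, ← Matrix.map_mul, ← Matrix.map_mul, MatBase.g0_mul_bm x z t hE]
    calc B⁻¹ * g0.map φ = B⁻¹ * g0.map φ * (B * B⁻¹) := by rw [mul_nonsing_inv _ hdet, mul_one]
      _ = B⁻¹ * (g0.map φ * B) * B⁻¹ := by simp only [Matrix.mul_assoc]
      _ = B⁻¹ * (B * g1.map φ) * B⁻¹ := by rw [h1]
      _ = (B⁻¹ * B) * g1.map φ * B⁻¹ := by simp only [Matrix.mul_assoc]
      _ = g1.map φ * B⁻¹ := by rw [nonsing_inv_mul _ hdet, one_mul]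
  obtain ⟨u0, u1, hu0, hu1, hr0, hr1, s, hs⟩ := exists_elements φ rho_ker_central
    rho_ker_central e he g0 (g0 ^ 4) g1 (g1 ^ 4)
    (by rw [← pow_succ', h05]) (by rw [← pow_succ, h05])
    (by rw [← pow_succ', h15]) (by rw [← pow_succ, h15]) h05 h15
    B⁻¹ B (nonsing_inv_mul _ hdet) (mul_nonsing_inv _ hdet) hconj
  obtain ⟨f, hf⟩ := D5.exists_dennis_rho 𝒟 ![0, 1, 2]
  have he1 : Function.Injective (e ∘ Sum.inl) := he.comp Sum.inl_injective
  -- powers
  have hpow : ∀ (u : St A) (U : Matrix (Fin 4 ⊕ Fin 4) (Fin 4 ⊕ Fin 4) A),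
      rho u = emb (e ∘ Sum.inl) U → ∀ n : ℕ, rho (u ^ n) = emb (e ∘ Sum.inl) (U ^ n) := by
    intro u U hu n
    induction n with
    | zero => rw [pow_zero, pow_zero, map_one, emb_one]
    | succ n ih => rw [pow_succ, pow_succ, map_mul, ih, hu, emb_mul _ he1]
  have hval : ∀ (u : St A) (U : Matrix (Fin 4 ⊕ Fin 4) (Fin 4 ⊕ Fin 4) A),
      u ^ 5 = 1 → rho u = emb (e ∘ Sum.inl) U →
      (∀ i < 5, U ^ (8 - i) * (U * U ^ i * U) = 1) ∧
      ∑ i ∈ Finset.range 5, f.f u (u ^ i) u =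
        ∑ i ∈ Finset.range 5, trace ((U ^ (8 - i)).map 𝒟.q * U.map (𝒟.D 0) *
          (U ^ i).map (𝒟.D 1) * U.map (𝒟.D 2)) := by
    intro u U hu5 hu
    have hU5 : U ^ 5 = 1 := by
      apply emb_injective (e ∘ Sum.inl) he1
      rw [← hpow u U hu, hu5, map_one, emb_one]
    have hinv : ∀ i < 5, U ^ (8 - i) * (U * U ^ i * U) = 1 := by
      intro i hi
      have h1 : U ^ (8 - i) * (U * U ^ i * U) = U ^ ((8 - i) + (1 + i + 1)) := by
        simp only [pow_add, pow_one]
      have h2 : (8 - i) + (1 + i + 1) = 5 * 2 := by omega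
      rw [h1, h2, pow_mul, hU5, one_pow]
    refine ⟨hinv, Finset.sum_congr rfl fun i hi => ?_⟩
    have := hf (Fin 4 ⊕ Fin 4) (e ∘ Sum.inl) he1 u (u ^ i) u U (U ^ i) U (U ^ (8 - i)) hu
      (hpow u U hu i) hu (hinv i (Finset.mem_range.mp hi))
    rw [this]
    rfl
  refine not_injective_of_conj φ u0 u1 hu0 hu1 s hs f ?_
  obtain ⟨hi0, hv0⟩ := hval u0 _ hu0 hr0
  obtain ⟨hi1, hv1⟩ := hval u1 _ hu1 hr1
  rw [hv0, hv1, trace_sum 𝒟 x z t hx0 hE h5 hz hx hx4 d0x d0z d0t d1x d1z d1t d2x d2z d2t _ rfl]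
  have hzero : (fromBlocks (g0 * g0) 0 0 (g0 ^ 4 * g0 ^ 4) :
      Matrix (Fin 4 ⊕ Fin 4) (Fin 4 ⊕ Fin 4) A).map (𝒟.D 0) = 0 := by
    have h1 : (fromBlocks (g0 * g0) 0 0 (g0 ^ 4 * g0 ^ 4) :
      Matrix (Fin 4 ⊕ Fin 4) (Fin 4 ⊕ Fin 4) A) =
      (fromBlocks (MatBase.g0 ℤ * MatBase.g0 ℤ) 0 0 (MatBase.g0 ℤ ^ 4 * MatBase.g0 ℤ ^ 4) :
      Matrix (Fin 4 ⊕ Fin 4) (Fin 4 ⊕ Fin 4) ℤ).map (Int.castRingHom A) := by
      rw [fromBlocks_map, hg0, ← g0_map_int A]
      simp only [← RingHom.mapMatrix_apply, map_mul, map_pow, map_zero]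
    rw [h1, map_D_intCast]
  have hz0 : ∑ i ∈ Finset.range 5, trace
      (((fromBlocks (g0 * g0) 0 0 (g0 ^ 4 * g0 ^ 4) :
        Matrix (Fin 4 ⊕ Fin 4) (Fin 4 ⊕ Fin 4) A) ^ (8 - i)).map 𝒟.q *
        (fromBlocks (g0 * g0) 0 0 (g0 ^ 4 * g0 ^ 4) :
          Matrix (Fin 4 ⊕ Fin 4) (Fin 4 ⊕ Fin 4) A).map (𝒟.D 0) *
        ((fromBlocks (g0 * g0) 0 0 (g0 ^ 4 * g0 ^ 4) :
          Matrix (Fin 4 ⊕ Fin 4) (Fin 4 ⊕ Fin 4) A) ^ i).map (𝒟.D 1) *
        (fromBlocks (g0 * g0) 0 0 (g0 ^ 4 * g0 ^ 4) :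
          Matrix (Fin 4 ⊕ Fin 4) (Fin 4 ⊕ Fin 4) A).map (𝒟.D 2)) = 0 := by
    refine Finset.sum_eq_zero fun i _ => ?_
    rw [hzero, Matrix.mul_zero, Matrix.zero_mul, Matrix.zero_mul, Matrix.trace_zero]
  rw [hz0]
  -- `2 x⁴ ≠ 0` in `Q`
  intro h
  apply hx4
  have h6 : 𝒟.q x ^ 4 = 3 * (2 * 𝒟.q x ^ 4) - 5 * 𝒟.q x ^ 4 := by ring
  rw [h6, h, h5]
  ring

end Crest.Agent.R171
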